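import Mathlib

/-!
The modified integer round-up property of bin packing for instances with configuration LP value at
most `4`, for instances with LP value at most `6` without items in `(1/⌈LP⌉, 1/4]`, and for instances
whose small items satisfy a size condition.
-/

namespace Vale.Agent.Results.P302.LPFour

open Finset

/-- A configuration of the instance `a`: a multiplicity for every size of the instance (and `0` for
every other number) such that the total size is at most `1`. -/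
def IsConfig {n : ℕ} (a : Fin n → ℚ) (c : ℚ → ℕ) : Prop :=
  (∀ σ, σ ∉ univ.image a → c σ = 0) ∧ ∑ σ ∈ univ.image a, σ * (c σ : ℚ) ≤ 1

/-- `v` is the value of a feasible solution of the configuration LP: finitely many configurations
with nonnegative weights of sum `v` covering every size with its multiplicity. -/
def IsLPValue {n : ℕ} (a : Fin n → ℚ) (v : ℝ) : Prop :=
  ∃ (r : ℕ) (c : Fin r → ℚ → ℕ) (z : Fin r → ℝ), (∀ t, IsConfig a (c t)) ∧ (∀ t, 0 ≤ z t) ∧
    (∀ σ ∈ univ.image a, ((univ.filter fun i => a i = σ).card : ℝ) ≤ ∑ t, z t * (c t σ : ℝ)) ∧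
    v = ∑ t, z t

/-- The value of the configuration LP. -/
noncomputable def LP {n : ℕ} (a : Fin n → ℚ) : ℝ := sInf {v | IsLPValue a v}

/-- The items can be partitioned into `m` bins of total size at most `1`. -/
def Packs {n : ℕ} (a : Fin n → ℚ) (m : ℕ) : Prop :=
  ∃ p : Fin n → Fin m, ∀ j, ∑ i ∈ univ.filter (fun i => p i = j), a i ≤ 1

/-- The least number of bins. -/
noncomputable def OPT {n : ℕ} (a : Fin n → ℚ) : ℕ := sInf {m | Packs a m}

/-- Weak duality. -/
theorem dual {n : ℕ} (a : Fin n → ℚ) {v : ℝ} (hv : IsLPValue a v) (w : ℚ → ℚ)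
    (hw : ∀ σ, 0 ≤ w σ)
    (h : ∀ c : ℚ → ℕ, IsConfig a c → ∑ σ ∈ univ.image a, w σ * (c σ : ℚ) ≤ 1) :
    ((∑ i, w (a i) : ℚ) : ℝ) ≤ v := by
  obtain ⟨r, c, z, hc, hz, hcov, rfl⟩ := hv
  have h1 : (∑ i, w (a i) : ℚ) =
      ∑ σ ∈ univ.image a, w σ * ((univ.filter fun i => a i = σ).card : ℚ) := by
    rw [← Finset.sum_fiberwise_of_maps_to (g := a) (t := univ.image a)
      (fun i hi => mem_image_of_mem a hi)]
    refine Finset.sum_congr rfl fun σ _ => ?_
    rw [Finset.sum_congr rfl (g := fun _ => w σ) (fun i hi => by rw [(mem_filter.1 hi).2])]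
    rw [Finset.sum_const, nsmul_eq_mul, mul_comm]
  rw [h1]
  push_cast
  calc ∑ σ ∈ univ.image a, (w σ : ℝ) * ((univ.filter fun i => a i = σ).card : ℝ)
      ≤ ∑ σ ∈ univ.image a, (w σ : ℝ) * ∑ t, z t * (c t σ : ℝ) := by
        refine Finset.sum_le_sum fun σ hσ => mul_le_mul_of_nonneg_left (hcov σ hσ) ?_
        exact_mod_cast hw σ
    _ = ∑ t, z t * ∑ σ ∈ univ.image a, (w σ : ℝ) * (c t σ : ℝ) := by
        simp_rw [Finset.mul_sum]
        rw [Finset.sum_comm]
        refine Finset.sum_congr rfl fun t _ => Finset.sum_congr rfl fun σ _ => ?_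
        ring
    _ ≤ ∑ t, z t * 1 := by
        refine Finset.sum_le_sum fun t _ => mul_le_mul_of_nonneg_left ?_ (hz t)
        have h2 := h (c t) (hc t)
        exact_mod_cast h2
    _ = ∑ t, z t := by simp

/-- The set of values is nonempty. -/
theorem nonempty_values {n : ℕ} (a : Fin n → ℚ) (ha : ∀ i, 0 < a i ∧ a i ≤ 1) :
    {v | IsLPValue a v}.Nonempty := by
  refine ⟨_, n, fun t => Pi.single (a t) 1, fun _ => 1, fun t => ⟨fun σ hσ => ?_, ?_⟩,
    fun _ => zero_le_one, fun σ _ => ?_, rfl⟩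
  · have h1 : σ ≠ a t := by
      rintro rfl
      exact hσ (mem_image_of_mem a (mem_univ t))
    exact Pi.single_eq_of_ne h1 1
  · rw [Finset.sum_eq_single (a t)]
    · simp [(ha t).2]
    · intro σ _ hσ
      simp [hσ]
    · intro h
      exact absurd (mem_image_of_mem a (mem_univ t)) h
  · rw [Finset.card_filter]
    push_cast
    refine Finset.sum_le_sum fun t _ => ?_
    by_cases h : a t = σ
    · simp [h]
    · have : ¬ σ = a t := fun h' => h h'.symm
      simp [h, this]

theorem le_LP {n : ℕ} (a : Fin n → ℚ) (ha : ∀ i, 0 < a i ∧ a i ≤ 1) (w : ℚ → ℚ)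
    (hw : ∀ σ, 0 ≤ w σ)
    (h : ∀ c : ℚ → ℕ, IsConfig a c → ∑ σ ∈ univ.image a, w σ * (c σ : ℚ) ≤ 1) :
    ((∑ i, w (a i) : ℚ) : ℝ) ≤ LP a :=
  le_csInf (nonempty_values a ha) fun _ hv => dual a hv w hw h

/-- The total size is at most the LP value. -/
theorem size_le {n : ℕ} (a : Fin n → ℚ) (ha : ∀ i, 0 < a i ∧ a i ≤ 1) :
    ((∑ i, a i : ℚ) : ℝ) ≤ LP a := by
  have h := le_LP a ha (fun σ => if 0 ≤ σ then σ else 0) (fun σ => by
    split_ifs with h
    · exact h
    · exact le_rfl) (fun c hc => by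
      refine le_trans (le_of_eq (Finset.sum_congr rfl fun σ hσ => ?_)) hc.2
      obtain ⟨i, _, rfl⟩ := mem_image.1 hσ
      simp only [if_pos (ha i).1.le])
  refine le_trans (le_of_eq ?_) h
  congr 1
  refine Finset.sum_congr rfl fun i _ => ?_
  simp only [if_pos (ha i).1.le]

/-- The weights used when the next item is larger than `1 / 3`. -/
def wt (s σ : ℚ) : ℚ := if σ < s then 0 else if 1 - s < σ then 1 else 1 / 2

theorem wt_nonneg (s σ : ℚ) : 0 ≤ wt s σ := by
  unfold wt
  split_ifs <;> norm_num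

theorem wt_config {n : ℕ} (a : Fin n → ℚ) (ha : ∀ i, 0 < a i ∧ a i ≤ 1) {s : ℚ}
    (hs : 1 / 3 < s) (c : ℚ → ℕ) (hc : IsConfig a c) :
    ∑ σ ∈ univ.image a, wt s σ * (c σ : ℚ) ≤ 1 := by
  have hpos : ∀ σ ∈ univ.image a, 0 < σ := by
    intro σ hσ
    obtain ⟨i, _, rfl⟩ := mem_image.1 hσ
    exact (ha i).1
  -- the part of the configuration with sizes at least `s`
  set T := (univ.image a).filter fun σ => s ≤ σ ∧ 1 ≤ c σ with hT
  have hsum : ∑ σ ∈ univ.image a, wt s σ * (c σ : ℚ) = ∑ σ ∈ T, wt s σ * (c σ : ℚ) := by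
    rw [hT, Finset.sum_filter]
    refine Finset.sum_congr rfl fun σ _ => ?_
    split_ifs with h
    · rfl
    · rw [not_and_or] at h
      rcases h with h | h
      · have : wt s σ = 0 := by
          unfold wt
          rw [if_pos (not_le.1 h)]
        rw [this, zero_mul]
      · have : c σ = 0 := by omega
        rw [this, Nat.cast_zero, mul_zero]
  have hsub : T ⊆ univ.image a := Finset.filter_subset _ _
  have hle : ∑ σ ∈ T, σ * (c σ : ℚ) ≤ 1 := by
    refine le_trans (Finset.sum_le_sum_of_subset_of_nonneg hsub fun σ hσ _ => ?_) hc.2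
    exact mul_nonneg (hpos σ hσ).le (Nat.cast_nonneg _)
  rw [hsum]
  by_cases hbig : ∃ σ₀ ∈ T, 1 - s < σ₀
  · obtain ⟨σ₀, hσ₀, hb⟩ := hbig
    have h0 := (mem_filter.1 hσ₀).2
    have hσ0pos : 0 < σ₀ := hpos _ (hsub hσ₀)
    -- no other size and multiplicity one
    have honly : T = {σ₀} := by
      refine Finset.eq_singleton_iff_unique_mem.2 ⟨hσ₀, fun σ hσ => ?_⟩
      by_contra hne
      have h1 := (mem_filter.1 hσ).2
      have h2 : σ * (c σ : ℚ) + σ₀ * (c σ₀ : ℚ) ≤ 1 := by
        have h3 : ∑ τ ∈ ({σ, σ₀} : Finset ℚ), τ * (c τ : ℚ) ≤ ∑ τ ∈ T, τ * (c τ : ℚ) := by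
          refine Finset.sum_le_sum_of_subset_of_nonneg ?_ fun τ hτ _ =>
            mul_nonneg (hpos τ (hsub hτ)).le (Nat.cast_nonneg _)
          intro τ hτ
          rcases mem_insert.1 hτ with h | h
          · rw [h]; exact hσ
          · rw [mem_singleton.1 h]; exact hσ₀
        rw [Finset.sum_pair hne] at h3
        exact h3.trans hle
      have h4 : (1 : ℚ) ≤ c σ := by exact_mod_cast h1.2
      have h5 : (1 : ℚ) ≤ c σ₀ := by exact_mod_cast h0.2
      have h6 : 0 < σ := hpos _ (hsub hσ)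
      nlinarith [h1.1]
    rw [honly, Finset.sum_singleton] at hle ⊢
    have h1 : c σ₀ = 1 := by
      have h5 : 1 ≤ c σ₀ := h0.2
      by_contra hne
      have h6 : (2 : ℚ) ≤ c σ₀ := by
        have : 2 ≤ c σ₀ := by omega
        exact_mod_cast this
      have h7 := h0.1
      nlinarith
    rw [h1]
    unfold wt
    split_ifs <;> norm_num
  · push Not at hbig
    have hw : ∀ σ ∈ T, wt s σ * (c σ : ℚ) = 1 / 2 * (c σ : ℚ) := by
      intro σ hσ
      have h1 := (mem_filter.1 hσ).2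
      unfold wt
      rw [if_neg (not_lt.2 h1.1), if_neg (not_lt.2 (hbig σ hσ))]
    rw [Finset.sum_congr rfl hw, ← Finset.mul_sum]
    have hcount : ∑ σ ∈ T, (c σ : ℚ) < 3 := by
      by_contra hcon
      push Not at hcon
      have h1 : s * ∑ σ ∈ T, (c σ : ℚ) ≤ ∑ σ ∈ T, σ * (c σ : ℚ) := by
        rw [Finset.mul_sum]
        refine Finset.sum_le_sum fun σ hσ => mul_le_mul_of_nonneg_right ?_ (Nat.cast_nonneg _)
        exact (mem_filter.1 hσ).2.1
      nlinarith
    have hN : ((∑ σ ∈ T, c σ : ℕ) : ℚ) < 3 := by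
      push_cast
      exact hcount
    have hN2 : (∑ σ ∈ T, c σ) ≤ 2 := by
      have : (∑ σ ∈ T, c σ) < 3 := by exact_mod_cast hN
      omega
    have hN3 : ((∑ σ ∈ T, c σ : ℕ) : ℚ) ≤ 2 := by exact_mod_cast hN2
    push_cast at hN3
    linarith

/-- The first weight for items in `(1/4, 1/3]`. -/
def w1 (s σ : ℚ) : ℚ := if σ < s then 0 else if 1 - s < σ then 1 else
  if (1 - s) / 2 < σ then 1 / 2 else 1 / 4

/-- The second weight for items in `(1/4, 1/3]`. -/
def w2 (s σ : ℚ) : ℚ := if σ < s then 0 else if 1 - s < σ then 1 else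
  if 1 / 2 < σ then 2 / 3 else 1 / 3

theorem w1_nonneg (s σ : ℚ) : 0 ≤ w1 s σ := by
  unfold w1
  split_ifs <;> norm_num

theorem w2_nonneg (s σ : ℚ) : 0 ≤ w2 s σ := by
  unfold w2
  split_ifs <;> norm_num

/-- A weight is admissible if it is supported on sizes at least `s`, equal to `1` beyond `1 - s`, and
if every multiset of sizes in `[s, 1 - s]` of total size at most `1` has weight at most `1`. -/
theorem config_of {n : ℕ} (a : Fin n → ℚ) (ha : ∀ i, 0 < a i ∧ a i ≤ 1) {s : ℚ} (hs0 : 0 < s)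
    (hs : s ≤ 1 / 3) (w : ℚ → ℚ) (hw0 : ∀ σ, σ < s → w σ = 0)
    (hw1 : ∀ σ, s ≤ σ → 1 - s < σ → w σ = 1) (c : ℚ → ℕ) (hc : IsConfig a c)
    (hsm : ∀ T : Finset ℚ, T ⊆ univ.image a → (∀ σ ∈ T, s ≤ σ ∧ σ ≤ 1 - s) →
      ∑ σ ∈ T, σ * (c σ : ℚ) ≤ 1 → ∑ σ ∈ T, w σ * (c σ : ℚ) ≤ 1) :
    ∑ σ ∈ univ.image a, w σ * (c σ : ℚ) ≤ 1 := by
  have hpos : ∀ σ ∈ univ.image a, 0 < σ := by
    intro σ hσ
    obtain ⟨i, _, rfl⟩ := mem_image.1 hσ
    exact (ha i).1
  set T := (univ.image a).filter fun σ => s ≤ σ ∧ 1 ≤ c σ with hT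
  have hsum : ∑ σ ∈ univ.image a, w σ * (c σ : ℚ) = ∑ σ ∈ T, w σ * (c σ : ℚ) := by
    rw [hT, Finset.sum_filter]
    refine Finset.sum_congr rfl fun σ _ => ?_
    split_ifs with h
    · rfl
    · rw [not_and_or] at h
      rcases h with h | h
      · rw [hw0 σ (not_le.1 h), zero_mul]
      · have : c σ = 0 := by omega
        rw [this, Nat.cast_zero, mul_zero]
  have hsub : T ⊆ univ.image a := Finset.filter_subset _ _
  have hle : ∑ σ ∈ T, σ * (c σ : ℚ) ≤ 1 := by
    refine le_trans (Finset.sum_le_sum_of_subset_of_nonneg hsub fun σ hσ _ => ?_) hc.2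
    exact mul_nonneg (hpos σ hσ).le (Nat.cast_nonneg _)
  rw [hsum]
  by_cases hbig : ∃ σ₀ ∈ T, 1 - s < σ₀
  · obtain ⟨σ₀, hσ₀, hb⟩ := hbig
    have h0 := (mem_filter.1 hσ₀).2
    have hσ0pos : 0 < σ₀ := hpos _ (hsub hσ₀)
    have honly : T = {σ₀} := by
      refine Finset.eq_singleton_iff_unique_mem.2 ⟨hσ₀, fun σ hσ => ?_⟩
      by_contra hne
      have h1 := (mem_filter.1 hσ).2
      have h2 : σ * (c σ : ℚ) + σ₀ * (c σ₀ : ℚ) ≤ 1 := by
        have h3 : ∑ τ ∈ ({σ, σ₀} : Finset ℚ), τ * (c τ : ℚ) ≤ ∑ τ ∈ T, τ * (c τ : ℚ) := by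
          refine Finset.sum_le_sum_of_subset_of_nonneg ?_ fun τ hτ _ =>
            mul_nonneg (hpos τ (hsub hτ)).le (Nat.cast_nonneg _)
          intro τ hτ
          rcases mem_insert.1 hτ with h | h
          · rw [h]; exact hσ
          · rw [mem_singleton.1 h]; exact hσ₀
        rw [Finset.sum_pair hne] at h3
        exact h3.trans hle
      have h4 : (1 : ℚ) ≤ c σ := by exact_mod_cast h1.2
      have h5 : (1 : ℚ) ≤ c σ₀ := by exact_mod_cast h0.2
      have h6 : 0 < σ := hpos _ (hsub hσ)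
      nlinarith [h1.1]
    rw [honly, Finset.sum_singleton] at hle ⊢
    have h1 : c σ₀ = 1 := by
      have h5 : 1 ≤ c σ₀ := h0.2
      by_contra hne
      have h6 : (2 : ℚ) ≤ c σ₀ := by
        have : 2 ≤ c σ₀ := by omega
        exact_mod_cast this
      nlinarith
    rw [h1, hw1 σ₀ h0.1 hb]
    norm_num
  · push Not at hbig
    exact hsm T hsub (fun σ hσ => ⟨(mem_filter.1 hσ).2.1, hbig σ hσ⟩) hle

theorem w1_config {n : ℕ} (a : Fin n → ℚ) (ha : ∀ i, 0 < a i ∧ a i ≤ 1) {s : ℚ}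
    (hs4 : 1 / 4 < s) (hs3 : s ≤ 1 / 3) (c : ℚ → ℕ) (hc : IsConfig a c) :
    ∑ σ ∈ univ.image a, w1 s σ * (c σ : ℚ) ≤ 1 := by
  refine config_of a ha (by linarith) hs3 (w1 s) (fun σ h => by unfold w1; rw [if_pos h])
    (fun σ h h' => by unfold w1; rw [if_neg (not_lt.2 h), if_pos h']) c hc
    fun T _ hT hle => ?_
  -- `N₁` half items and `N₂` quarter items
  set A := T.filter fun σ => (1 - s) / 2 < σ with hA
  set B := T.filter fun σ => ¬ (1 - s) / 2 < σ with hB
  have e1 : ∑ σ ∈ T, w1 s σ * (c σ : ℚ) =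
      1 / 2 * ((∑ σ ∈ A, c σ : ℕ) : ℚ) + 1 / 4 * ((∑ σ ∈ B, c σ : ℕ) : ℚ) := by
    rw [← Finset.sum_filter_add_sum_filter_not T (fun σ => (1 - s) / 2 < σ)]
    push_cast
    rw [Finset.mul_sum, Finset.mul_sum]
    congr 1
    · refine Finset.sum_congr rfl fun σ hσ => ?_
      have h1 := mem_filter.1 hσ
      have h2 := hT σ h1.1
      unfold w1
      rw [if_neg (not_lt.2 h2.1), if_neg (not_lt.2 h2.2), if_pos h1.2]
    · refine Finset.sum_congr rfl fun σ hσ => ?_
      have h1 := mem_filter.1 hσ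
      have h2 := hT σ h1.1
      unfold w1
      rw [if_neg (not_lt.2 h2.1), if_neg (not_lt.2 h2.2), if_neg h1.2]
  have e2 : ∑ σ ∈ A, σ * (c σ : ℚ) + ∑ σ ∈ B, σ * (c σ : ℚ) ≤ 1 := by
    rw [hA, hB, Finset.sum_filter_add_sum_filter_not]
    exact hle
  have e3 : (1 - s) / 2 * ((∑ σ ∈ A, c σ : ℕ) : ℚ) ≤ ∑ σ ∈ A, σ * (c σ : ℚ) := by
    push_cast
    rw [Finset.mul_sum]
    exact Finset.sum_le_sum fun σ hσ => mul_le_mul_of_nonneg_right
      (mem_filter.1 hσ).2.le (Nat.cast_nonneg _)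
  have e3' : 1 ≤ (∑ σ ∈ A, c σ) →
      (1 - s) / 2 * ((∑ σ ∈ A, c σ : ℕ) : ℚ) < ∑ σ ∈ A, σ * (c σ : ℚ) := by
    intro hpos
    push_cast
    rw [Finset.mul_sum]
    obtain ⟨σ, hσ, hne⟩ := Finset.exists_ne_zero_of_sum_ne_zero
      (show (∑ σ ∈ A, c σ) ≠ 0 by omega)
    refine Finset.sum_lt_sum (fun σ hσ => mul_le_mul_of_nonneg_right
      (mem_filter.1 hσ).2.le (Nat.cast_nonneg _)) ⟨σ, hσ, ?_⟩
    refine mul_lt_mul_of_pos_right (mem_filter.1 hσ).2 ?_
    exact_mod_cast Nat.pos_of_ne_zero hne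
  have e4 : s * ((∑ σ ∈ B, c σ : ℕ) : ℚ) ≤ ∑ σ ∈ B, σ * (c σ : ℚ) := by
    push_cast
    rw [Finset.mul_sum]
    exact Finset.sum_le_sum fun σ hσ => mul_le_mul_of_nonneg_right
      (hT σ (mem_filter.1 hσ).1).1 (Nat.cast_nonneg _)
  rw [e1]
  generalize (∑ σ ∈ A, c σ) = N₁ at *
  generalize (∑ σ ∈ B, c σ) = N₂ at *
  have hgoal : 2 * N₁ + N₂ ≤ 4 := by
    by_contra hcon
    push Not at hcon
    have hN2 : (0 : ℚ) ≤ N₂ := Nat.cast_nonneg _
    have hN1 : (0 : ℚ) ≤ N₁ := Nat.cast_nonneg _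
    rcases Nat.lt_or_ge N₁ 1 with h | h
    · have h5 : (5 : ℚ) ≤ N₂ := by
        have : 5 ≤ N₂ := by omega
        exact_mod_cast this
      nlinarith
    · have h6 := e3' h
      rcases Nat.lt_or_ge N₁ 2 with h7 | h7
      · have h8 : N₁ = 1 := by omega
        have h9 : (3 : ℚ) ≤ N₂ := by
          have : 3 ≤ N₂ := by omega
          exact_mod_cast this
        subst h8
        norm_num at h6
        nlinarith
      · rcases Nat.lt_or_ge N₁ 3 with h8 | h8
        · have h9 : N₁ = 2 := by omega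
          have h10 : (1 : ℚ) ≤ N₂ := by
            have : 1 ≤ N₂ := by omega
            exact_mod_cast this
          subst h9
          norm_num at h6
          nlinarith
        · have h9 : (3 : ℚ) ≤ N₁ := by exact_mod_cast h8
          nlinarith
  have h : (2 : ℚ) * N₁ + N₂ ≤ 4 := by exact_mod_cast hgoal
  linarith

theorem w2_config {n : ℕ} (a : Fin n → ℚ) (ha : ∀ i, 0 < a i ∧ a i ≤ 1) {s : ℚ}
    (hs4 : 1 / 4 < s) (hs3 : s ≤ 1 / 3) (c : ℚ → ℕ) (hc : IsConfig a c) :
    ∑ σ ∈ univ.image a, w2 s σ * (c σ : ℚ) ≤ 1 := by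
  refine config_of a ha (by linarith) hs3 (w2 s) (fun σ h => by unfold w2; rw [if_pos h])
    (fun σ h h' => by unfold w2; rw [if_neg (not_lt.2 h), if_pos h']) c hc
    fun T _ hT hle => ?_
  set A := T.filter fun σ => 1 / 2 < σ with hA
  set B := T.filter fun σ => ¬ 1 / 2 < σ with hB
  have e1 : ∑ σ ∈ T, w2 s σ * (c σ : ℚ) =
      2 / 3 * ((∑ σ ∈ A, c σ : ℕ) : ℚ) + 1 / 3 * ((∑ σ ∈ B, c σ : ℕ) : ℚ) := by
    rw [← Finset.sum_filter_add_sum_filter_not T (fun σ => 1 / 2 < σ)]
    push_cast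
    rw [Finset.mul_sum, Finset.mul_sum]
    congr 1
    · refine Finset.sum_congr rfl fun σ hσ => ?_
      have h1 := mem_filter.1 hσ
      have h2 := hT σ h1.1
      unfold w2
      rw [if_neg (not_lt.2 h2.1), if_neg (not_lt.2 h2.2), if_pos h1.2]
    · refine Finset.sum_congr rfl fun σ hσ => ?_
      have h1 := mem_filter.1 hσ
      have h2 := hT σ h1.1
      unfold w2
      rw [if_neg (not_lt.2 h2.1), if_neg (not_lt.2 h2.2), if_neg h1.2]
  have e2 : ∑ σ ∈ A, σ * (c σ : ℚ) + ∑ σ ∈ B, σ * (c σ : ℚ) ≤ 1 := by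
    rw [hA, hB, Finset.sum_filter_add_sum_filter_not]
    exact hle
  have e3 : 1 / 2 * ((∑ σ ∈ A, c σ : ℕ) : ℚ) ≤ ∑ σ ∈ A, σ * (c σ : ℚ) := by
    push_cast
    rw [Finset.mul_sum]
    exact Finset.sum_le_sum fun σ hσ => mul_le_mul_of_nonneg_right
      (mem_filter.1 hσ).2.le (Nat.cast_nonneg _)
  have e3' : 1 ≤ (∑ σ ∈ A, c σ) →
      1 / 2 * ((∑ σ ∈ A, c σ : ℕ) : ℚ) < ∑ σ ∈ A, σ * (c σ : ℚ) := by
    intro hpos
    push_cast
    rw [Finset.mul_sum]
    obtain ⟨σ, hσ, hne⟩ := Finset.exists_ne_zero_of_sum_ne_zero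
      (show (∑ σ ∈ A, c σ) ≠ 0 by omega)
    refine Finset.sum_lt_sum (fun σ hσ => mul_le_mul_of_nonneg_right
      (mem_filter.1 hσ).2.le (Nat.cast_nonneg _)) ⟨σ, hσ, ?_⟩
    refine mul_lt_mul_of_pos_right (mem_filter.1 hσ).2 ?_
    exact_mod_cast Nat.pos_of_ne_zero hne
  have e4 : s * ((∑ σ ∈ B, c σ : ℕ) : ℚ) ≤ ∑ σ ∈ B, σ * (c σ : ℚ) := by
    push_cast
    rw [Finset.mul_sum]
    exact Finset.sum_le_sum fun σ hσ => mul_le_mul_of_nonneg_right
      (hT σ (mem_filter.1 hσ).1).1 (Nat.cast_nonneg _)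
  rw [e1]
  generalize (∑ σ ∈ A, c σ) = N₁ at *
  generalize (∑ σ ∈ B, c σ) = N₂ at *
  have hgoal : 2 * N₁ + N₂ ≤ 3 := by
    by_contra hcon
    push Not at hcon
    have hN2 : (0 : ℚ) ≤ N₂ := Nat.cast_nonneg _
    rcases Nat.lt_or_ge N₁ 1 with h | h
    · have h5 : (4 : ℚ) ≤ N₂ := by
        have : 4 ≤ N₂ := by omega
        exact_mod_cast this
      have h6 : (0 : ℚ) ≤ N₁ := Nat.cast_nonneg _
      nlinarith
    · have h6 := e3' h
      rcases Nat.lt_or_ge N₁ 2 with h7 | h7
      · have h8 : N₁ = 1 := by omega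
        have h9 : (2 : ℚ) ≤ N₂ := by
          have : 2 ≤ N₂ := by omega
          exact_mod_cast this
        subst h8
        norm_num at h6
        nlinarith
      · have h9 : (2 : ℚ) ≤ N₁ := by exact_mod_cast h7
        nlinarith
  have h : (2 : ℚ) * N₁ + N₂ ≤ 3 := by exact_mod_cast hgoal
  linarith

/-- The facts about one bin which cannot take an item of size `s ∈ (1/4, 1/3]`. -/
theorem bin_facts {n : ℕ} (a : Fin n → ℚ) {s : ℚ} (hs4 : 1 / 4 < s) (hs3 : s ≤ 1 / 3)
    (B : Finset (Fin n)) (hge : ∀ i ∈ B, s ≤ a i) (hload : 1 < ∑ i ∈ B, a i + s) :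
    2 / 3 ≤ ∑ i ∈ B, w2 s (a i) ∧ 3 / 4 ≤ ∑ i ∈ B, w1 s (a i) ∧
    (∑ i ∈ B, w2 s (a i) < 1 → ∑ i ∈ B, w1 s (a i) < 1 →
      ∃ u ∈ B, a u ≤ 1 / 2 ∧ (1 - s) / 2 < a u ∧ ∀ v ∈ B, v ≠ u → a v ≤ (1 - s) / 2) := by
  have hw2 : ∀ i ∈ B, 1 / 3 ≤ w2 s (a i) := by
    intro i hi
    unfold w2
    rw [if_neg (not_lt.2 (hge i hi))]
    split_ifs <;> norm_num
  have hw1 : ∀ i ∈ B, 1 / 4 ≤ w1 s (a i) := by
    intro i hi
    unfold w1
    rw [if_neg (not_lt.2 (hge i hi))]
    split_ifs <;> norm_num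
  by_cases hbig : ∃ i ∈ B, 1 - s < a i
  · obtain ⟨i, hi, hb⟩ := hbig
    have h1 : w1 s (a i) = 1 := by
      unfold w1
      rw [if_neg (not_lt.2 (hge i hi)), if_pos hb]
    have h2 : w2 s (a i) = 1 := by
      unfold w2
      rw [if_neg (not_lt.2 (hge i hi)), if_pos hb]
    have h3 : 1 ≤ ∑ i ∈ B, w1 s (a i) := by
      rw [← h1]
      exact Finset.single_le_sum (f := fun i => w1 s (a i)) (fun i _ => w1_nonneg _ _) hi
    have h4 : 1 ≤ ∑ i ∈ B, w2 s (a i) := by
      rw [← h2]
      exact Finset.single_le_sum (f := fun i => w2 s (a i)) (fun i _ => w2_nonneg _ _) hi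
    exact ⟨by linarith, by linarith, fun h => absurd h (not_lt.2 h4)⟩
  · push Not at hbig
    have hc2 : 2 ≤ B.card := by
      by_contra hcon
      have h4 : B.card ≤ 1 := by omega
      have h5 : ∑ i ∈ B, a i ≤ 1 - s := by
        rcases Nat.eq_zero_or_pos B.card with h6 | h6
        · rw [Finset.card_eq_zero.1 h6, Finset.sum_empty]
          linarith
        · have h7 : B.card = 1 := by omega
          obtain ⟨i, hi⟩ := Finset.card_eq_one.1 h7
          rw [hi, Finset.sum_singleton]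
          exact hbig i (by rw [hi]; exact mem_singleton_self i)
      linarith
    rcases Nat.lt_or_ge B.card 3 with h3 | h3
    · have h2 : B.card = 2 := by omega
      obtain ⟨u, v, huv, hB⟩ := Finset.card_eq_two.1 h2
      have hu : u ∈ B := by rw [hB]; simp
      have hv : v ∈ B := by rw [hB]; simp
      have hl : 1 < a u + a v + s := by
        rw [hB, Finset.sum_pair huv] at hload
        exact hload
      have key : ∀ u v : Fin n, u ≠ v → B = {u, v} → u ∈ B → v ∈ B → a v ≤ a u →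
          1 < a u + a v + s →
          2 / 3 ≤ ∑ i ∈ B, w2 s (a i) ∧ 3 / 4 ≤ ∑ i ∈ B, w1 s (a i) ∧
          (∑ i ∈ B, w2 s (a i) < 1 → ∑ i ∈ B, w1 s (a i) < 1 →
            ∃ u ∈ B, a u ≤ 1 / 2 ∧ (1 - s) / 2 < a u ∧ ∀ v ∈ B, v ≠ u → a v ≤ (1 - s) / 2) := by
        intro u v huv hB hu hv hle hl
        have e1 : ∑ i ∈ B, w1 s (a i) = w1 s (a u) + w1 s (a v) := by
          rw [hB, Finset.sum_pair huv]
        have e2 : ∑ i ∈ B, w2 s (a i) = w2 s (a u) + w2 s (a v) := by
          rw [hB, Finset.sum_pair huv]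
        have h5 : (1 - s) / 2 < a u := by linarith
        have h6 : w1 s (a u) = 1 / 2 := by
          unfold w1
          rw [if_neg (not_lt.2 (hge u hu)), if_neg (not_lt.2 (hbig u hu)), if_pos h5]
        refine ⟨?_, ?_, fun h7 h8 => ?_⟩
        · have := hw2 u hu
          have := hw2 v hv
          rw [e2]
          linarith
        · have := hw1 v hv
          rw [e1, h6]
          linarith
        · refine ⟨u, hu, ?_, h5, fun y hy hyu => ?_⟩
          · by_contra hcon
            push Not at hcon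
            have h9 : w2 s (a u) = 2 / 3 := by
              unfold w2
              rw [if_neg (not_lt.2 (hge u hu)), if_neg (not_lt.2 (hbig u hu)), if_pos hcon]
            have := hw2 v hv
            rw [e2, h9] at h7
            linarith
          · have hyv : y = v := by
              rw [hB] at hy
              rcases mem_insert.1 hy with h | h
              · exact absurd h hyu
              · exact mem_singleton.1 h
            rw [hyv]
            by_contra hcon
            push Not at hcon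
            have h9 : w1 s (a v) = 1 / 2 := by
              unfold w1
              rw [if_neg (not_lt.2 (hge v hv)), if_neg (not_lt.2 (hbig v hv)), if_pos hcon]
            rw [e1, h6, h9] at h8
            norm_num at h8
      rcases le_total (a v) (a u) with h | h
      · exact key u v huv hB hu hv h hl
      · exact key v u huv.symm (by rw [hB, Finset.pair_comm]) hv hu h (by linarith)
    · have h4 : (3 : ℚ) ≤ B.card := by exact_mod_cast h3
      have h5 : 1 ≤ ∑ i ∈ B, w2 s (a i) := by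
        have := Finset.card_nsmul_le_sum B (fun i => w2 s (a i)) (1 / 3) hw2
        rw [nsmul_eq_mul] at this
        linarith
      have h6 : 3 / 4 ≤ ∑ i ∈ B, w1 s (a i) := by
        have := Finset.card_nsmul_le_sum B (fun i => w1 s (a i)) (1 / 4) hw1
        rw [nsmul_eq_mul] at this
        linarith
      exact ⟨by linarith, h6, fun h => absurd h (not_lt.2 h5)⟩

/-- The case of an item in `(1/4, 1/3]`. -/
theorem contra4 {n : ℕ} (a : Fin n → ℚ) (ha : ∀ i, 0 < a i ∧ a i ≤ 1) (m : ℕ) (hm : LP a ≤ m)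
    (hm6 : m ≤ 6) (S : Finset (Fin n)) (x : Fin n) (hx : x ∉ S) (hmin : ∀ i ∈ S, a x ≤ a i)
    (hs4 : 1 / 4 < a x) (hs3 : a x ≤ 1 / 3) (p : Fin n → Fin (m + 1))
    (hload : ∀ j, 1 < ∑ i ∈ S.filter (fun i => p i = j), a i + a x)
    (hinv : ∀ j j', j ≠ j' → ∀ τ : ℚ, (∃ i ∈ S, p i = j ∧ τ ≤ a i) →
      (∃ i ∈ S, p i = j' ∧ τ ≤ a i) →
      1 < ∑ k ∈ S.filter (fun k => p k = j ∧ τ ≤ a k), a k +
        ∑ k ∈ S.filter (fun k => p k = j' ∧ τ ≤ a k), a k) : False := by
  classical
  set W1 : Fin (m + 1) → ℚ := fun j => ∑ i ∈ S.filter (fun i => p i = j), w1 (a x) (a i) with hW1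
  set W2 : Fin (m + 1) → ℚ := fun j => ∑ i ∈ S.filter (fun i => p i = j), w2 (a x) (a i) with hW2
  have hf := fun j => bin_facts a hs4 hs3 (S.filter (fun i => p i = j))
    (fun i hi => hmin i (mem_filter.1 hi).1) (hload j)
  set Z := univ.filter fun j => W2 j < 1 with hZ
  set Z' := univ.filter fun j => W2 j < 1 ∧ W1 j < 1 with hZ'
  have hZ'1 : Z'.card ≤ 1 := by
    refine Finset.card_le_one.2 fun j hj j' hj' => ?_
    by_contra hne
    obtain ⟨h1, h2⟩ := (mem_filter.1 hj).2
    obtain ⟨h1', h2'⟩ := (mem_filter.1 hj').2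
    obtain ⟨u, hu, hu1, hu2, hu3⟩ := (hf j).2.2 h1 h2
    obtain ⟨u', hu', hu1', hu2', hu3'⟩ := (hf j').2.2 h1' h2'
    have h3 := hinv j j' hne (min (a u) (a u'))
      ⟨u, (mem_filter.1 hu).1, (mem_filter.1 hu).2, min_le_left _ _⟩
      ⟨u', (mem_filter.1 hu').1, (mem_filter.1 hu').2, min_le_right _ _⟩
    have hτ : (1 - a x) / 2 < min (a u) (a u') := lt_min hu2 hu2'
    have h4 : ∀ (j : Fin (m + 1)) (u : Fin n), a u ≤ 1 / 2 →
        (∀ v ∈ S.filter (fun i => p i = j), v ≠ u → a v ≤ (1 - a x) / 2) →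
        ∀ τ : ℚ, (1 - a x) / 2 < τ →
        ∑ k ∈ S.filter (fun k => p k = j ∧ τ ≤ a k), a k ≤ 1 / 2 := by
      intro j u hu1 hu3 τ hτ
      have h5 : S.filter (fun k => p k = j ∧ τ ≤ a k) ⊆ {u} := by
        intro k hk
        obtain ⟨hk1, hk2, hk3⟩ := mem_filter.1 hk
        rw [mem_singleton]
        by_contra hku
        have := hu3 k (mem_filter.2 ⟨hk1, hk2⟩) hku
        linarith
      refine le_trans (Finset.sum_le_sum_of_subset_of_nonneg h5 fun k _ _ => (ha k).1.le) ?_
      rw [Finset.sum_singleton]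
      exact hu1
    have h5 := h4 j u hu1 hu3 _ hτ
    have h6 := h4 j' u' hu1' hu3' _ hτ
    linarith
  have hS : ∀ (w : ℚ → ℚ → ℚ), (∀ s σ, 0 ≤ w s σ) →
      ∑ j, ∑ i ∈ S.filter (fun i => p i = j), w (a x) (a i) + w (a x) (a x) ≤
        ∑ i, w (a x) (a i) := by
    intro w hw
    have h1 : ∑ i ∈ insert x S, w (a x) (a i) ≤ ∑ i, w (a x) (a i) :=
      Finset.sum_le_sum_of_subset_of_nonneg (subset_univ _) fun i _ _ => hw _ _
    rw [Finset.sum_insert hx] at h1
    rw [Finset.sum_fiberwise S p (fun i => w (a x) (a i)), add_comm]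
    exact h1
  have hmQ : ∀ q : ℚ, (q : ℝ) ≤ LP a → q ≤ m := fun q hq => by
    have := hq.trans hm
    exact_mod_cast this
  have hA := (hS w2 w2_nonneg).trans (hmQ _ (le_LP a ha (w2 (a x)) (w2_nonneg _)
    fun c hc => w2_config a ha hs4 hs3 c hc))
  have hB := (hS w1 w1_nonneg).trans (hmQ _ (le_LP a ha (w1 (a x)) (w1_nonneg _)
    fun c hc => w1_config a ha hs4 hs3 c hc))
  have hx2 : w2 (a x) (a x) = 1 / 3 := by
    unfold w2
    rw [if_neg (lt_irrefl _), if_neg (by linarith), if_neg (by linarith)]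
  have hx1 : w1 (a x) (a x) = 1 / 4 := by
    unfold w1
    rw [if_neg (lt_irrefl _), if_neg (by linarith), if_neg (by linarith)]
  rw [hx2] at hA
  rw [hx1] at hB
  have hA2 : (m : ℚ) + 1 - 1 / 3 * Z.card ≤ ∑ j, W2 j := by
    calc (m : ℚ) + 1 - 1 / 3 * Z.card =
          ∑ j : Fin (m + 1), (1 - if W2 j < 1 then (1 / 3 : ℚ) else 0) := by
          rw [Finset.sum_sub_distrib, Finset.sum_const, Finset.card_univ, Fintype.card_fin,
            ← Finset.sum_filter, Finset.sum_const, nsmul_eq_mul, nsmul_eq_mul]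
          push_cast
          ring
      _ ≤ ∑ j, W2 j := by
          refine Finset.sum_le_sum fun j _ => ?_
          have := (hf j).1
          split_ifs with h
          · linarith
          · linarith
  have hB2 : 3 / 4 * ((m : ℚ) + 1) + 1 / 4 * Z.card - 1 / 4 * Z'.card ≤ ∑ j, W1 j := by
    calc 3 / 4 * ((m : ℚ) + 1) + 1 / 4 * Z.card - 1 / 4 * Z'.card =
          ∑ j : Fin (m + 1), (3 / 4 + (if W2 j < 1 then (1 / 4 : ℚ) else 0) -
            if W2 j < 1 ∧ W1 j < 1 then (1 / 4 : ℚ) else 0) := by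
          rw [Finset.sum_sub_distrib, Finset.sum_add_distrib, Finset.sum_const,
            Finset.card_univ, Fintype.card_fin, ← Finset.sum_filter, ← Finset.sum_filter,
            Finset.sum_const, Finset.sum_const, nsmul_eq_mul, nsmul_eq_mul, nsmul_eq_mul]
          push_cast
          ring
      _ ≤ ∑ j, W1 j := by
          refine Finset.sum_le_sum fun j _ => ?_
          have := (hf j).2.1
          by_cases h1 : W2 j < 1
          · by_cases h2 : W1 j < 1
            · rw [if_pos h1, if_pos ⟨h1, h2⟩]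
              linarith
            · rw [if_pos h1, if_neg (fun h => h2 h.2)]
              linarith
          · rw [if_neg h1, if_neg (fun h => h1 h.1)]
            linarith
  have hz4 : (4 : ℚ) ≤ Z.card := by linarith
  have hz' : ((Z'.card : ℕ) : ℚ) ≤ 1 := by exact_mod_cast hZ'1
  have hmq : (m : ℚ) ≤ 6 := by exact_mod_cast hm6
  linarith

/-- Packing in decreasing order, opening a new bin only if necessary. -/
theorem pack {n : ℕ} (a : Fin n → ℚ) (ha : ∀ i, 0 < a i ∧ a i ≤ 1) (m : ℕ) (hm : LP a ≤ m)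
    (hsmall : ∀ i, a i ≤ 1 / 3 →
      ∑ j ∈ univ.filter (fun j => a i ≤ a j), a j ≤ (m : ℚ) + 1 - m * a i ∨
      (1 / 4 < a i ∧ m ≤ 6)) :
    Packs a (m + 1) := by
  have key : ∀ S : Finset (Fin n), ∃ p : Fin n → Fin (m + 1), (∀ j,
      ∑ i ∈ S.filter (fun i => p i = j), a i ≤ 1) ∧
      ∀ j j', j ≠ j' → ∀ τ : ℚ, (∃ i ∈ S, p i = j ∧ τ ≤ a i) →
      (∃ i ∈ S, p i = j' ∧ τ ≤ a i) →
      1 < ∑ k ∈ S.filter (fun k => p k = j ∧ τ ≤ a k), a k +
        ∑ k ∈ S.filter (fun k => p k = j' ∧ τ ≤ a k), a k := by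
    intro S
    refine Finset.induction_on_min_value (motive := fun S => ∃ p : Fin n → Fin (m + 1), (∀ j,
      ∑ i ∈ S.filter (fun i => p i = j), a i ≤ 1) ∧
      ∀ j j', j ≠ j' → ∀ τ : ℚ, (∃ i ∈ S, p i = j ∧ τ ≤ a i) →
      (∃ i ∈ S, p i = j' ∧ τ ≤ a i) →
      1 < ∑ k ∈ S.filter (fun k => p k = j ∧ τ ≤ a k), a k +
        ∑ k ∈ S.filter (fun k => p k = j' ∧ τ ≤ a k), a k) a S
      ⟨fun _ => 0, fun j => by simp, fun j j' _ τ h => by simp at h⟩ ?_
    rintro x S hx hmin ⟨p, hp, hinv⟩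
    -- the effect of placing `x` into the bin `j₀`
    have hupd : ∀ j₀ : Fin (m + 1), ∀ i ∈ S, Function.update p x j₀ i = p i := by
      intro j₀ i hi
      rw [Function.update_of_ne]
      rintro rfl
      exact hx hi
    have hld : ∀ j₀, (∑ i ∈ S.filter (fun i => p i = j₀), a i + a x ≤ 1) →
        ∀ j, ∑ i ∈ (insert x S).filter (fun i => Function.update p x j₀ i = j), a i ≤ 1 := by
      intro j₀ hj₀ j
      have hS : ∀ j, S.filter (fun i => Function.update p x j₀ i = j) =
          S.filter (fun i => p i = j) := by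
        intro j
        refine Finset.filter_congr fun i hi => ?_
        rw [hupd j₀ i hi]
      rw [Finset.filter_insert]
      by_cases hj : j₀ = j
      · rw [if_pos (by rw [Function.update_self]; exact hj), Finset.sum_insert
          (fun h => hx (mem_filter.1 h).1), hS, ← hj]
        linarith
      · rw [if_neg (by rw [Function.update_self]; exact hj), hS]
        exact hp j
    have hFge : ∀ j₀ j (τ : ℚ), ∑ k ∈ S.filter (fun k => p k = j ∧ τ ≤ a k), a k ≤
        ∑ k ∈ (insert x S).filter (fun k => Function.update p x j₀ k = j ∧ τ ≤ a k), a k := by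
      intro j₀ j τ
      refine Finset.sum_le_sum_of_subset_of_nonneg ?_ fun k _ _ => (ha k).1.le
      intro k hk
      obtain ⟨hk1, hk2, hk3⟩ := mem_filter.1 hk
      refine mem_filter.2 ⟨mem_insert_of_mem hk1, ?_, hk3⟩
      rw [hupd j₀ k hk1]
      exact hk2
    by_cases hfit : ∃ j, (∃ i ∈ S, p i = j) ∧ ∑ i ∈ S.filter (fun i => p i = j), a i + a x ≤ 1
    · obtain ⟨j₀, ⟨i₀, hi₀, hpi₀⟩, hj₀⟩ := hfit
      refine ⟨Function.update p x j₀, hld j₀ hj₀, fun j j' hne τ h h' => ?_⟩
      have hwit : ∀ j, (∃ i ∈ insert x S, Function.update p x j₀ i = j ∧ τ ≤ a i) →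
          ∃ i ∈ S, p i = j ∧ τ ≤ a i := by
        rintro j ⟨i, hi, hij, hτ⟩
        rcases mem_insert.1 hi with h1 | h1
        · rw [h1, Function.update_self] at hij
          rw [h1] at hτ
          exact ⟨i₀, hi₀, hpi₀.trans hij, hτ.trans (hmin i₀ hi₀)⟩
        · rw [hupd j₀ i h1] at hij
          exact ⟨i, h1, hij, hτ⟩
      have h1 := hinv j j' hne τ (hwit j h) (hwit j' h')
      have h2 := hFge j₀ j τ
      have h3 := hFge j₀ j' τ
      linarith
    · push Not at hfit
      by_cases hemp : ∃ j₀, ∀ i ∈ S, p i ≠ j₀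
      · obtain ⟨j₀, hj₀⟩ := hemp
        have h0 : S.filter (fun i => p i = j₀) = ∅ :=
          Finset.filter_eq_empty_iff.2 fun i hi => hj₀ i hi
        refine ⟨Function.update p x j₀, hld j₀ ?_, fun j j' hne τ h h' => ?_⟩
        · rw [h0, Finset.sum_empty, zero_add]
          exact (ha x).2
        · -- the bin of `x`
          have hxb : τ ≤ a x → a x ≤ ∑ k ∈ (insert x S).filter
              (fun k => Function.update p x j₀ k = j₀ ∧ τ ≤ a k), a k := by
            intro hτ
            refine Finset.single_le_sum (f := a) (fun k _ => (ha k).1.le) ?_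
            exact mem_filter.2 ⟨mem_insert_self _ _, Function.update_self _ _ _, hτ⟩
          have hold : ∀ j, τ ≤ a x → (∃ i ∈ S, p i = j) →
              1 < ∑ k ∈ (insert x S).filter
                (fun k => Function.update p x j₀ k = j ∧ τ ≤ a k), a k + a x := by
            intro j hτ hj
            have h1 := hfit j hj
            have h2 := hFge j₀ j τ
            have h3 : ∑ i ∈ S.filter (fun i => p i = j), a i =
                ∑ k ∈ S.filter (fun k => p k = j ∧ τ ≤ a k), a k := by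
              congr 1
              refine Finset.filter_congr fun i hi => ?_
              exact ⟨fun h => ⟨h, hτ.trans (hmin i hi)⟩, fun h => h.1⟩
            linarith
          have hwit : ∀ j, (∃ i ∈ insert x S, Function.update p x j₀ i = j ∧ τ ≤ a i) →
              (j = j₀ ∧ τ ≤ a x) ∨ ∃ i ∈ S, p i = j ∧ τ ≤ a i := by
            rintro j ⟨i, hi, hij, hτ⟩
            rcases mem_insert.1 hi with h1 | h1
            · rw [h1, Function.update_self] at hij
              rw [h1] at hτ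
              exact Or.inl ⟨hij.symm, hτ⟩
            · rw [hupd j₀ i h1] at hij
              exact Or.inr ⟨i, h1, hij, hτ⟩
          rcases hwit j h with ⟨h1, h2⟩ | ⟨i, hi, hij, hτ⟩
          · rcases hwit j' h' with ⟨h1', _⟩ | ⟨i', hi', hij', _⟩
            · exact absurd (h1.trans h1'.symm) hne
            · have h3 := hold j' h2 ⟨i', hi', hij'⟩
              have h4 := hxb h2
              rw [h1]
              linarith
          · rcases hwit j' h' with ⟨h1', h2'⟩ | ⟨i', hi', hij', hτ'⟩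
            · have h3 := hold j h2' ⟨i, hi, hij⟩
              have h4 := hxb h2'
              rw [h1']
              linarith
            · have h1 := hinv j j' hne τ ⟨i, hi, hij, hτ⟩ ⟨i', hi', hij', hτ'⟩
              have h2 := hFge j₀ j τ
              have h3 := hFge j₀ j' τ
              linarith
      · exfalso
        push Not at hemp
        have hfull : ∀ j, 1 < ∑ i ∈ S.filter (fun i => p i = j), a i + a x :=
          fun j => hfit j (hemp j)
        rcases le_or_gt (a x) (1 / 3) with hx3 | hx3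
        · rcases hsmall x hx3 with h1 | ⟨h1, h1'⟩
          · -- volume
            have h2 : ∑ j : Fin (m + 1), ∑ i ∈ S.filter (fun i => p i = j), a i =
                ∑ i ∈ S, a i := Finset.sum_fiberwise S p a
            have h3 : ∑ _j : Fin (m + 1), (1 - a x) < ∑ i ∈ S, a i := by
              rw [← h2]
              exact Finset.sum_lt_sum_of_nonempty ⟨0, mem_univ _⟩ fun j _ => by
                have := hfull j
                linarith
            rw [Finset.sum_const, Finset.card_univ, Fintype.card_fin, nsmul_eq_mul] at h3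
            push_cast at h3
            have h4 : ∑ i ∈ insert x S, a i ≤ ∑ j ∈ univ.filter (fun j => a x ≤ a j), a j := by
              refine Finset.sum_le_sum_of_subset_of_nonneg ?_ fun j _ _ => (ha j).1.le
              intro i hi
              rw [mem_filter]
              refine ⟨mem_univ _, ?_⟩
              rcases mem_insert.1 hi with h | h
              · rw [h]
              · exact hmin i h
            rw [Finset.sum_insert hx] at h4
            nlinarith
          · exact contra4 a ha m hm h1' S x hx hmin h1 hx3 p hfull hinv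
        · -- weights
          have h1 : ∀ j : Fin (m + 1),
              1 ≤ ∑ i ∈ S.filter (fun i => p i = j), wt (a x) (a i) := by
            intro j
            have hj := hfull j
            set B := S.filter (fun i => p i = j) with hB
            have hge : ∀ i ∈ B, a x ≤ a i := fun i hi => hmin i (mem_filter.1 hi).1
            by_cases hbig : ∃ i ∈ B, 1 - a x < a i
            · obtain ⟨i, hi, hb⟩ := hbig
              have h2 : wt (a x) (a i) = 1 := by
                unfold wt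
                rw [if_neg (not_lt.2 (hge i hi)), if_pos hb]
              rw [← h2]
              exact Finset.single_le_sum (f := fun i => wt (a x) (a i))
                (fun i _ => wt_nonneg _ _) hi
            · push Not at hbig
              have h2 : ∀ i ∈ B, wt (a x) (a i) = 1 / 2 := by
                intro i hi
                unfold wt
                rw [if_neg (not_lt.2 (hge i hi)), if_neg (not_lt.2 (hbig i hi))]
              rw [Finset.sum_congr rfl h2, Finset.sum_const, nsmul_eq_mul]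
              have h3 : 2 ≤ B.card := by
                by_contra hcon
                have h4 : B.card ≤ 1 := by omega
                have h5 : ∑ i ∈ B, a i ≤ 1 - a x := by
                  rcases Nat.eq_zero_or_pos B.card with h6 | h6
                  · rw [Finset.card_eq_zero.1 h6, Finset.sum_empty]
                    have := (ha x).2
                    linarith
                  · have h7 : B.card = 1 := by omega
                    obtain ⟨i, hi⟩ := Finset.card_eq_one.1 h7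
                    rw [hi, Finset.sum_singleton]
                    exact hbig i (by rw [hi]; exact mem_singleton_self i)
                linarith
              have h4 : (2 : ℚ) ≤ B.card := by exact_mod_cast h3
              linarith
          have h2 : (m : ℚ) + 1 ≤ ∑ i ∈ S, wt (a x) (a i) := by
            rw [← Finset.sum_fiberwise S p (fun i => wt (a x) (a i))]
            calc (m : ℚ) + 1 = ∑ _j : Fin (m + 1), (1 : ℚ) := by
                  rw [Finset.sum_const, Finset.card_univ, Fintype.card_fin, nsmul_eq_mul]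
                  push_cast
                  ring
              _ ≤ _ := Finset.sum_le_sum fun j _ => h1 j
          have h3 : ∑ i ∈ S, wt (a x) (a i) ≤ ∑ i, wt (a x) (a i) :=
            Finset.sum_le_sum_of_subset_of_nonneg (subset_univ _) fun i _ _ => wt_nonneg _ _
          have h4 := le_LP a ha (wt (a x)) (wt_nonneg _) (fun c hc => wt_config a ha hx3 c hc)
          have h5 : ((m : ℚ) + 1 : ℝ) ≤ ((∑ i, wt (a x) (a i) : ℚ) : ℝ) := by
            exact_mod_cast h2.trans h3
          push_cast at h5 h4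
          linarith
  obtain ⟨p, hp, _⟩ := key univ
  exact ⟨p, hp⟩

/-- (1) `OPT ≤ ⌈LP⌉ + 1` if every item of size at most `1/3` satisfies the size condition, or has
size greater than `1/4` while `⌈LP⌉ ≤ 6`. (2) The same if no item has a size in `(1/⌈LP⌉, 1/3]`.
(3) The same if `LP ≤ 6` and no item has a size in `(1/⌈LP⌉, 1/4]`. (4) The same if `LP ≤ 4`. -/
theorem result (n : ℕ) (a : Fin n → ℚ) (ha : ∀ i, 0 < a i ∧ a i ≤ 1) :
    ((∀ i, a i ≤ 1 / 3 → ∑ j ∈ univ.filter (fun j => a i ≤ a j), a j ≤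
      (⌈LP a⌉₊ : ℚ) + 1 - ⌈LP a⌉₊ * a i ∨ (1 / 4 < a i ∧ ⌈LP a⌉₊ ≤ 6)) →
      OPT a ≤ ⌈LP a⌉₊ + 1) ∧
    ((∀ i, 1 / 3 < a i ∨ a i * ⌈LP a⌉₊ ≤ 1) → OPT a ≤ ⌈LP a⌉₊ + 1) ∧
    (LP a ≤ 6 → (∀ i, 1 / 4 < a i ∨ a i * ⌈LP a⌉₊ ≤ 1) → OPT a ≤ ⌈LP a⌉₊ + 1) ∧
    (LP a ≤ 4 → OPT a ≤ ⌈LP a⌉₊ + 1) := by
  have hsz : ∀ i, ∑ j ∈ univ.filter (fun j => a i ≤ a j), a j ≤ (⌈LP a⌉₊ : ℚ) := by
    intro i
    have h1 : ∑ j ∈ univ.filter (fun j => a i ≤ a j), a j ≤ ∑ j, a j :=
      Finset.sum_le_sum_of_subset_of_nonneg (filter_subset _ _) fun j _ _ => (ha j).1.le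
    have h2 := (size_le a ha).trans (Nat.le_ceil _)
    have h3 : ∑ j, a j ≤ (⌈LP a⌉₊ : ℚ) := by exact_mod_cast h2
    exact h1.trans h3
  have hA : (∀ i, a i ≤ 1 / 3 → ∑ j ∈ univ.filter (fun j => a i ≤ a j), a j ≤
      (⌈LP a⌉₊ : ℚ) + 1 - ⌈LP a⌉₊ * a i ∨ (1 / 4 < a i ∧ ⌈LP a⌉₊ ≤ 6)) →
      OPT a ≤ ⌈LP a⌉₊ + 1 := fun h =>
    Nat.sInf_le (pack a ha _ (Nat.le_ceil _) h)
  have hC : LP a ≤ 6 → (∀ i, 1 / 4 < a i ∨ a i * ⌈LP a⌉₊ ≤ 1) → OPT a ≤ ⌈LP a⌉₊ + 1 := by
    intro h6 h
    have h7 : ⌈LP a⌉₊ ≤ 6 := Nat.ceil_le.2 (by exact_mod_cast h6)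
    refine hA fun i hi => ?_
    rcases h i with h1 | h1
    · exact Or.inr ⟨h1, h7⟩
    · have := hsz i
      left
      nlinarith
  refine ⟨hA, fun h => hA fun i hi => ?_, hC, fun h4 => hC (by linarith) fun i => ?_⟩
  · rcases h i with h1 | h1
    · linarith
    · have := hsz i
      left
      nlinarith
  · rcases lt_or_ge (1 / 4) (a i) with h | h
    · exact Or.inl h
    · refine Or.inr ?_
      have h5 : ⌈LP a⌉₊ ≤ 4 := Nat.ceil_le.2 (by exact_mod_cast h4)
      have h6 : ((⌈LP a⌉₊ : ℕ) : ℚ) ≤ 4 := by exact_mod_cast h5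
      have h7 := (ha i).1
      nlinarith

end Vale.Agent.Results.P302.LPFour
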