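import Mathlib

/-!
# P302: the round-up conjecture with any additive constant reduces to instances with large items
-/

namespace Vale.Agent.P302

/-- The items `a i` can be packed into `k` bins. -/
def Packs {ι : Type} [Fintype ι] (a : ι → ℚ) (k : ℕ) : Prop :=
  ∃ p : ι → Fin k, ∀ b : Fin k, ∑ i, (if p i = b then a i else 0) ≤ 1

/-- The least number of bins. -/
noncomputable def OPT {ι : Type} [Fintype ι] (a : ι → ℚ) : ℕ := sInf {k | Packs a k}

/-- `x` is the value of a feasible solution of the configuration LP: finitely many configurations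
`C j` (finite multisets of positive sizes with sum at most one) with weights `z j ≥ 0` of total `x`,
which cover every size `s` at least as often as it occurs among the items. -/
def Feasible {ι : Type} [Fintype ι] (a : ι → ℚ) (x : ℝ) : Prop :=
  ∃ (J : Type) (_ : Fintype J) (C : J → Multiset ℚ) (z : J → ℝ),
    (∀ j, (∀ s ∈ C j, 0 < s) ∧ (C j).sum ≤ 1) ∧ (∀ j, 0 ≤ z j) ∧
    (∀ s : ℚ, (({i | a i = s} : Set ι).ncard : ℝ) ≤ ∑ j, ((C j).count s : ℝ) * z j) ∧
    x = ∑ j, z j

/-- The value of the configuration LP. -/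
noncomputable def LP {ι : Type} [Fintype ι] (a : ι → ℚ) : ℝ := sInf {x | Feasible a x}

/-- Item sizes lie in `(0, 1]`. -/
def Instance {ι : Type} (a : ι → ℚ) : Prop := ∀ i, 0 < a i ∧ a i ≤ 1

private lemma size_le {ι : Type} [Fintype ι] (a : ι → ℚ) (ha : Instance a) {x : ℝ}
    (hx : Feasible a x) : ∑ i, (a i : ℝ) ≤ x := by
  classical
  obtain ⟨J, _, C, z, hC, hz, hcov, rfl⟩ := hx
  have h1 : ∑ i, (a i : ℝ) =
      ∑ s ∈ Finset.univ.image a, (s : ℝ) * (({i | a i = s} : Set ι).ncard : ℝ) := by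
    rw [← Finset.sum_fiberwise_of_maps_to (s := Finset.univ) (t := Finset.univ.image a) (g := a)
      (fun i _ => Finset.mem_image_of_mem a (Finset.mem_univ i))]
    refine Finset.sum_congr rfl fun s _ => ?_
    have h2 : ∑ i ∈ Finset.univ.filter (fun i => a i = s), (a i : ℝ) =
        ∑ i ∈ Finset.univ.filter (fun i => a i = s), (s : ℝ) :=
      Finset.sum_congr rfl fun i hi => by rw [(Finset.mem_filter.1 hi).2]
    rw [h2, Finset.sum_const, nsmul_eq_mul, mul_comm]
    congr 2
    rw [← Set.ncard_coe_finset]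
    congr 1
    ext i
    simp
  rw [h1]
  have hpos : ∀ s ∈ Finset.univ.image a, (0 : ℝ) ≤ (s : ℝ) := by
    intro s hs
    obtain ⟨i, _, rfl⟩ := Finset.mem_image.1 hs
    exact_mod_cast (ha i).1.le
  calc ∑ s ∈ Finset.univ.image a, (s : ℝ) * (({i | a i = s} : Set ι).ncard : ℝ)
      ≤ ∑ s ∈ Finset.univ.image a, (s : ℝ) * ∑ j, ((C j).count s : ℝ) * z j :=
        Finset.sum_le_sum fun s hs => mul_le_mul_of_nonneg_left (hcov s) (hpos s hs)
    _ = ∑ j, z j * ∑ s ∈ Finset.univ.image a, (s : ℝ) * ((C j).count s : ℝ) := by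
        simp only [Finset.mul_sum]
        rw [Finset.sum_comm]
        refine Finset.sum_congr rfl fun j _ => Finset.sum_congr rfl fun s _ => by ring
    _ ≤ ∑ j, z j * 1 := by
        refine Finset.sum_le_sum fun j _ => mul_le_mul_of_nonneg_left ?_ (hz j)
        have h3 : ((C j).sum : ℚ) = ∑ s ∈ (C j).toFinset, (C j).count s • s :=
          Finset.sum_multiset_count (C j)
        have h4 : ∑ s ∈ Finset.univ.image a, s * ((C j).count s : ℚ) ≤ (C j).sum := by
          rw [h3]
          have h5 : ∑ s ∈ Finset.univ.image a, s * ((C j).count s : ℚ) =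
              ∑ s ∈ (Finset.univ.image a).filter (fun s => s ∈ C j), s * ((C j).count s : ℚ) := by
            symm
            apply Finset.sum_subset (Finset.filter_subset _ _)
            intro s hs hs'
            have : s ∉ C j := fun h => hs' (Finset.mem_filter.2 ⟨hs, h⟩)
            rw [Multiset.count_eq_zero_of_notMem this]
            simp
          rw [h5]
          refine le_trans (le_of_eq (Finset.sum_congr rfl fun s _ => ?_))
            (Finset.sum_le_sum_of_subset_of_nonneg (t := (C j).toFinset)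
              (fun s hs => Multiset.mem_toFinset.2 (Finset.mem_filter.1 hs).2)
              (fun s hs _ => nsmul_nonneg ((hC j).1 s (Multiset.mem_toFinset.1 hs)).le _))
          rw [nsmul_eq_mul, mul_comm]
        have h6 := h4.trans (hC j).2
        exact_mod_cast h6
    _ = ∑ j, z j := by simp

private lemma feas_nonempty {ι : Type} [Fintype ι] (a : ι → ℚ) (ha : Instance a) :
    {x | Feasible a x}.Nonempty := by
  classical
  refine ⟨∑ _i : ι, (1 : ℝ), ι, inferInstance, fun i => {a i}, fun _ => 1, ?_, ?_, ?_, rfl⟩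
  · intro j
    refine ⟨?_, ?_⟩
    · intro s hs
      rw [Multiset.mem_singleton] at hs
      rw [hs]
      exact (ha j).1
    · rw [Multiset.sum_singleton]
      exact (ha j).2
  · intro j
    norm_num
  · intro s
    have h1 : (({i | a i = s} : Set ι).ncard) = ∑ j : ι, ({a j} : Multiset ℚ).count s := by
      simp only [Multiset.count_singleton]
      rw [Finset.sum_boole, Nat.cast_id, ← Set.ncard_coe_finset]
      congr 1
      ext i
      simp [eq_comm]
    rw [h1]
    push_cast
    simp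

private lemma feas_bdd {ι : Type} [Fintype ι] (a : ι → ℚ) (ha : Instance a) :
    BddBelow {x | Feasible a x} :=
  ⟨∑ i, (a i : ℝ), fun _ hx => size_le a ha hx⟩

private lemma size_le_LP {ι : Type} [Fintype ι] (a : ι → ℚ) (ha : Instance a) :
    ∑ i, (a i : ℝ) ≤ LP a :=
  le_csInf (feas_nonempty a ha) fun _ hx => size_le a ha hx

private lemma LP_nonneg {ι : Type} [Fintype ι] (a : ι → ℚ) (ha : Instance a) : 0 ≤ LP a :=
  le_trans (Finset.sum_nonneg fun i _ => by exact_mod_cast (ha i).1.le) (size_le_LP a ha)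

private lemma LP_mono {ι κ : Type} [Fintype ι] [Fintype κ] (a : ι → ℚ) (ha : Instance a)
    (f : κ → ι) (hf : Function.Injective f) : LP (a ∘ f) ≤ LP a := by
  have ha' : Instance (a ∘ f) := fun i => ha (f i)
  refine csInf_le_csInf (feas_bdd _ ha') (feas_nonempty a ha) ?_
  rintro x ⟨J, hJ, C, z, hC, hz, hcov, hx⟩
  refine ⟨J, hJ, C, z, hC, hz, fun s => le_trans ?_ (hcov s), hx⟩
  have h1 : ({i | (a ∘ f) i = s} : Set κ).ncard ≤ ({i | a i = s} : Set ι).ncard :=
    Set.ncard_le_ncard_of_injOn f (fun i hi => hi) hf.injOn (Set.toFinite _)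
  exact_mod_cast h1

private lemma packs_mono {ι : Type} [Fintype ι] {a : ι → ℚ} {k m : ℕ} (h : Packs a k)
    (hkm : k ≤ m) : Packs a m := by
  obtain ⟨p, hp⟩ := h
  refine ⟨fun i => Fin.castLE hkm (p i), fun b => ?_⟩
  by_cases hb : ∃ c : Fin k, Fin.castLE hkm c = b
  · obtain ⟨c, rfl⟩ := hb
    have h1 : ∀ i, (Fin.castLE hkm (p i) = Fin.castLE hkm c) = (p i = c) := fun i =>
      propext (Fin.castLE_injective hkm).eq_iff
    simp only [h1]
    exact hp c
  · push Not at hb
    have h1 : ∑ i, (if Fin.castLE hkm (p i) = b then a i else 0) = 0 :=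
      Finset.sum_eq_zero fun i _ => if_neg (hb (p i))
    rw [h1]
    norm_num

private lemma packs_card {ι : Type} [Fintype ι] (a : ι → ℚ) (ha : Instance a) :
    Packs a (Fintype.card ι) := by
  classical
  refine ⟨Fintype.equivFin ι, fun b => ?_⟩
  rw [Finset.sum_eq_single ((Fintype.equivFin ι).symm b)]
  · split_ifs
    · exact (ha _).2
    · norm_num
  · intro i _ hi
    rw [if_neg]
    intro h
    apply hi
    rw [← h, Equiv.symm_apply_apply]
  · intro h
    exact absurd (Finset.mem_univ _) h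

private lemma OPT_le_iff {ι : Type} [Fintype ι] (a : ι → ℚ) (ha : Instance a) (m : ℕ) :
    OPT a ≤ m ↔ Packs a m :=
  ⟨fun h => packs_mono (Nat.sInf_mem (s := {k | Packs a k}) ⟨_, packs_card a ha⟩) h,
    fun h => Nat.sInf_le h⟩

/-- One step: an item that is not large can be removed. -/
private lemma step {ι : Type} [Fintype ι] [DecidableEq ι] (c : ℕ) (hc : 1 ≤ c) (a : ι → ℚ)
    (ha : Instance a) (i₀ : ι) (hi : (a i₀ : ℝ) * (LP a + c - 1) ≤ c)
    (h : OPT (fun i : {i // i ≠ i₀} => a i) ≤ ⌈LP (fun i : {i // i ≠ i₀} => a i)⌉₊ + c) :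
    OPT a ≤ ⌈LP a⌉₊ + c := by
  set m := ⌈LP a⌉₊ + c with hm
  have ha' : Instance (fun i : {i // i ≠ i₀} => a i) := fun i => ha i
  have hLP : LP (fun i : {i // i ≠ i₀} => a i) ≤ LP a :=
    LP_mono a ha (fun i : {i // i ≠ i₀} => (i : ι)) Subtype.val_injective
  have h1 : OPT (fun i : {i // i ≠ i₀} => a i) ≤ m :=
    h.trans (Nat.add_le_add_right (Nat.ceil_le_ceil hLP) c)
  obtain ⟨p, hp⟩ := (OPT_le_iff _ ha' m).1 h1
  rw [OPT_le_iff a ha]
  have hsplit : ∀ g : ι → ℚ, ∑ i, g i = g i₀ + ∑ i : {i // i ≠ i₀}, g i := by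
    intro g
    rw [← Finset.add_sum_erase _ g (Finset.mem_univ i₀)]
    congr 1
    rw [← Finset.sum_subtype (Finset.univ.erase i₀) (fun i => by simp) g]
  by_cases hb : ∃ b : Fin m, a i₀ + ∑ i : {i // i ≠ i₀}, (if p i = b then a i else 0) ≤ 1
  · obtain ⟨b, hb⟩ := hb
    refine ⟨fun i => if h : i ≠ i₀ then p ⟨i, h⟩ else b, fun b' => ?_⟩
    rw [hsplit]
    have h2 : ∀ i : {i // i ≠ i₀},
        (if (if h : (i : ι) ≠ i₀ then p ⟨i, h⟩ else b) = b' then a i else 0) =
          if p i = b' then a i else 0 := by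
      intro i
      rw [dif_pos i.2]
    simp only [h2]
    by_cases hbb : b = b'
    · subst hbb
      simpa using hb
    · have h3 := hp b'
      simpa [hbb] using h3
  · exfalso
    push Not at hb
    have hmpos : 0 < m := by omega
    have h2 : (m : ℚ) * (1 - a i₀) < ∑ b : Fin m, ∑ i : {i // i ≠ i₀},
        (if p i = b then a i else 0) := by
      have h3 : ∑ _b : Fin m, (1 - a i₀) = (m : ℚ) * (1 - a i₀) := by
        rw [Finset.sum_const, Finset.card_univ, Fintype.card_fin, nsmul_eq_mul]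
      rw [← h3]
      apply Finset.sum_lt_sum_of_nonempty ⟨⟨0, hmpos⟩, Finset.mem_univ _⟩
      intro b _
      linarith [hb b]
    rw [Finset.sum_comm] at h2
    have h4 : ∀ i : {i // i ≠ i₀}, ∑ b : Fin m, (if p i = b then a i else 0) = a i := by
      intro i
      simp
    simp only [h4] at h2
    have h5 : (m : ℚ) * (1 - a i₀) + a i₀ < ∑ i, a i := by
      rw [hsplit]
      linarith
    have h6 : (m : ℝ) * (1 - a i₀) + a i₀ < ∑ i, (a i : ℝ) := by exact_mod_cast h5
    have h7 := size_le_LP a ha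
    have h8 : LP a + c ≤ (m : ℝ) := by
      rw [hm]
      push_cast
      linarith [Nat.le_ceil (LP a)]
    have h9 : (0 : ℝ) ≤ 1 - a i₀ := by
      have : (a i₀ : ℝ) ≤ 1 := by exact_mod_cast (ha i₀).2
      linarith
    have h10 := mul_le_mul_of_nonneg_right h8 h9
    nlinarith

private lemma main_ind (c : ℕ) (hc : 1 ≤ c)
    (hred : ∀ (ι : Type) [Fintype ι] (a : ι → ℚ), Instance a →
      (∀ i, (c : ℝ) < (a i : ℝ) * (LP a + c - 1)) → OPT a ≤ ⌈LP a⌉₊ + c) (n : ℕ) :
    ∀ (ι : Type) [Fintype ι] (a : ι → ℚ), Instance a → Fintype.card ι = n →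
      OPT a ≤ ⌈LP a⌉₊ + c := by
  classical
  induction n with
  | zero =>
    intro ι _ a ha hn
    apply hred ι a ha
    intro i
    exact absurd hn (Fintype.card_pos_iff.2 ⟨i⟩).ne'
  | succ n ih =>
    intro ι _ a ha hn
    by_cases h : ∀ i, (c : ℝ) < (a i : ℝ) * (LP a + c - 1)
    · exact hred ι a ha h
    · push Not at h
      obtain ⟨i₀, hi⟩ := h
      apply step c hc a ha i₀ hi
      apply ih
      · exact fun i => ha i
      · rw [Fintype.card_subtype_compl, hn]
        simp

/-- For every `c ≥ 1` (`c = 1` is the modified integer round-up conjecture): `OPT ≤ ⌈LP⌉ + c` holds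
for all instances if and only if it holds for those in which every item is larger than
`c / (LP + c - 1)`. -/
theorem _root_.Vale.Agent.Results.P302.LargeItems.result (c : ℕ) (hc : 1 ≤ c) :
    (∀ (ι : Type) [Fintype ι] (a : ι → ℚ), Instance a → OPT a ≤ ⌈LP a⌉₊ + c) ↔
      ∀ (ι : Type) [Fintype ι] (a : ι → ℚ), Instance a →
        (∀ i, (c : ℝ) < (a i : ℝ) * (LP a + c - 1)) → OPT a ≤ ⌈LP a⌉₊ + c :=
  ⟨fun h ι _ a ha _ => h ι a ha, fun h ι _ a ha => main_ind c hc h _ ι a ha rfl⟩

end Vale.Agent.P302
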