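import Vale.Agent.Lib.P302S.LP

/-!
The modified integer round-up conjecture for instances of small optimum.
-/

namespace Vale.Agent.Results.P302.SmallOptimum

open Vale.Agent.P302S

/-- Let `I` be a bin packing instance (a finite multiset of sizes in `(0,1]`). If `OPT I ≤ 6`, or
`LP I ≤ 4`, or all sizes are larger than `1/4` and `OPT I ≤ 8` or `LP I ≤ 6`, then
`OPT I ≤ ⌈LP I⌉ + 1`. -/
theorem result (I : Multiset ℝ) (hI : ∀ x ∈ I, 0 < x ∧ x ≤ 1)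
    (h : (OPT I ≤ 6 ∨ LP I ≤ 4) ∨ ((∀ x ∈ I, 1 / 4 < x) ∧ (OPT I ≤ 8 ∨ LP I ≤ 6))) :
    (OPT I : ℤ) ≤ ⌈LP I⌉ + 1 := by
  rcases h with (h | h) | ⟨h0, h | h⟩
  · exact small_OPT hI (q := 4) (Or.inl le_rfl) h
  · exact small_LP hI (q := 4) (Or.inl le_rfl) (by exact_mod_cast h)
  · exact small_OPT hI (q := 6) (Or.inr ⟨le_rfl, h0⟩) h
  · exact small_LP hI (q := 6) (Or.inr ⟨le_rfl, h0⟩) (by exact_mod_cast h)

end Vale.Agent.Results.P302.SmallOptimum
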