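import Mathlib

/-!
P302: the modified integer round-up property for all bin packing instances whose configuration LP
value is at most three, and a reduction of every counterexample to its large items.
-/

open Finset

namespace Vale.Agent.P302

/-- The items `0, ..., n - 1` of sizes `a i` are partitioned into `m` bins of capacity `1`. -/
def IsPacking {n : ℕ} (a : Fin n → ℚ) {m : ℕ} (f : Fin n → Fin m) : Prop :=
  ∀ j : Fin m, ∑ i with f i = j, a i ≤ 1

/-- least number of bins -/
noncomputable def OPT {n : ℕ} (a : Fin n → ℚ) : ℕ :=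
  sInf {m : ℕ | ∃ f : Fin n → Fin m, IsPacking a f}

/-- A configuration: multiplicities `c σ` of sizes `σ` occurring in the instance, total size at
most `1`. -/
def IsConfig {n : ℕ} (a : Fin n → ℚ) (c : ℚ →₀ ℕ) : Prop :=
  c.support ⊆ univ.image a ∧ c.sum (fun σ k => (k : ℚ) * σ) ≤ 1

/-- Feasible solution of the configuration LP. -/
def IsFeasible {n : ℕ} (a : Fin n → ℚ) (z : (ℚ →₀ ℕ) →₀ ℝ) : Prop :=
  (∀ c, 0 ≤ z c) ∧ (∀ c ∈ z.support, IsConfig a c) ∧
    ∀ σ ∈ univ.image a, ((univ.filter fun i => a i = σ).card : ℝ) ≤ z.sum fun c t => t * (c σ : ℝ)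

/-- The configuration LP value. -/
noncomputable def LP {n : ℕ} (a : Fin n → ℚ) : ℝ :=
  sInf {v : ℝ | ∃ z, IsFeasible a z ∧ v = z.sum fun _ t => t}

section

variable {n : ℕ} {a : Fin n → ℚ}

theorem exists_feasible (h1 : ∀ i, a i ≤ 1) : ∃ z, IsFeasible a z := by
  classical
  refine ⟨∑ σ ∈ univ.image a, Finsupp.single (Finsupp.single σ 1)
    ((univ.filter fun i => a i = σ).card : ℝ), ?_, ?_, ?_⟩
  · intro c
    rw [Finsupp.finsetSum_apply]
    refine Finset.sum_nonneg fun σ _ => ?_
    rw [Finsupp.single_apply]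
    split_ifs
    · positivity
    · exact le_rfl
  · intro c hc
    have h2 := Finsupp.support_finsetSum hc
    rw [Finset.mem_biUnion] at h2
    obtain ⟨σ, hσ, hc2⟩ := h2
    have h3 := Finsupp.support_single_subset hc2
    rw [Finset.mem_singleton] at h3
    rw [h3]
    obtain ⟨i, _, hi⟩ := Finset.mem_image.1 hσ
    constructor
    · intro τ hτ
      have h4 := Finsupp.support_single_subset hτ
      rw [Finset.mem_singleton] at h4
      rw [h4]
      exact hσ
    · rw [Finsupp.sum_single_index (by simp)]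
      rw [← hi]
      simpa using h1 i
  · intro σ hσ
    rw [← Finsupp.sum_finsetSum_index (by simp) (by intros; ring)]
    have h2 : ∀ τ ∈ univ.image a, 0 ≤ (Finsupp.single (Finsupp.single τ 1 : ℚ →₀ ℕ)
        ((univ.filter fun i => a i = τ).card : ℝ)).sum fun c t => t * (c σ : ℝ) := by
      intro τ _
      rw [Finsupp.sum_single_index (by simp)]
      positivity
    refine le_trans ?_ (Finset.single_le_sum h2 hσ)
    rw [Finsupp.sum_single_index (by simp)]
    simp

/-- weak duality -/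
theorem dual (h1 : ∀ i, a i ≤ 1) (y : ℚ → ℝ) (hy : ∀ σ, 0 ≤ y σ)
    (hc : ∀ c, IsConfig a c → c.sum (fun σ k => (k : ℝ) * y σ) ≤ 1) :
    ∑ i, y (a i) ≤ LP a := by
  classical
  refine le_csInf ?_ ?_
  · obtain ⟨z, hz⟩ := exists_feasible h1
    exact ⟨_, z, hz, rfl⟩
  · rintro v ⟨z, ⟨hz0, hzc, hzn⟩, rfl⟩
    have e1 : ∑ i, y (a i) = ∑ σ ∈ univ.image a,
        ((univ.filter fun i => a i = σ).card : ℝ) * y σ := by
      rw [← Finset.sum_fiberwise_of_maps_to (g := a) (t := univ.image a)
        (fun i _ => Finset.mem_image_of_mem a (Finset.mem_univ i))]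
      refine Finset.sum_congr rfl fun σ _ => ?_
      rw [Finset.sum_congr rfl (g := fun _ => y σ) fun i hi => by rw [(Finset.mem_filter.1 hi).2],
        Finset.sum_const, nsmul_eq_mul]
    rw [e1]
    calc ∑ σ ∈ univ.image a, ((univ.filter fun i => a i = σ).card : ℝ) * y σ
        ≤ ∑ σ ∈ univ.image a, (z.sum fun c t => t * (c σ : ℝ)) * y σ :=
          Finset.sum_le_sum fun σ hσ => mul_le_mul_of_nonneg_right (hzn σ hσ) (hy σ)
      _ = ∑ c ∈ z.support, z c * ∑ σ ∈ univ.image a, (c σ : ℝ) * y σ := by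
          simp only [Finsupp.sum, Finset.sum_mul, Finset.mul_sum]
          rw [Finset.sum_comm]
          refine Finset.sum_congr rfl fun c _ => Finset.sum_congr rfl fun σ _ => ?_
          ring
      _ ≤ ∑ c ∈ z.support, z c * 1 := by
          refine Finset.sum_le_sum fun c hcs => mul_le_mul_of_nonneg_left ?_ (hz0 c)
          have h2 := hc c (hzc c hcs)
          refine le_trans (le_of_eq ?_) h2
          rw [Finsupp.sum]
          refine (Finset.sum_subset (hzc c hcs).1 fun σ _ hσ => ?_).symm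
          rw [Finsupp.notMem_support_iff.1 hσ]
          simp
      _ = z.sum fun _ t => t := by simp [Finsupp.sum]

/-- the items of `J` fit into `m` bins -/
def Fits (a : Fin n → ℚ) (J : Finset (Fin n)) (m : ℕ) : Prop :=
  ∃ f : Fin n → Fin m, ∀ j : Fin m, ∑ i ∈ J, (if f i = j then a i else 0) ≤ 1

theorem opt_le {m : ℕ} (h : Fits a univ m) : OPT a ≤ m := by
  obtain ⟨f, hf⟩ := h
  refine Nat.sInf_le ⟨f, fun j => ?_⟩
  rw [Finset.sum_filter]
  exact hf j

theorem fits_card (h1 : ∀ i, a i ≤ 1) {J : Finset (Fin n)} {m : ℕ} (hm : 0 < m) (hJ : J.card ≤ m) :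
    Fits a J m := by
  classical
  obtain ⟨e⟩ : Nonempty (J ↪ Fin m) := by
    apply Function.Embedding.nonempty_of_card_le
    simpa using hJ
  refine ⟨fun i => if h : i ∈ J then e ⟨i, h⟩ else ⟨0, hm⟩, fun j => ?_⟩
  beta_reduce
  by_cases hj : ∃ x : J, e x = j
  · obtain ⟨x, hx⟩ := hj
    rw [Finset.sum_eq_single x.1]
    · rw [dif_pos x.2, if_pos (show e ⟨x.1, x.2⟩ = j from hx)]
      exact h1 _
    · intro i hi hne
      rw [dif_pos hi, if_neg]
      intro h
      apply hne
      have := e.injective (h.trans hx.symm)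
      exact congrArg Subtype.val this
    · intro h
      exact absurd x.2 h
  · rw [Finset.sum_eq_zero]
    · exact zero_le_one
    · intro i hi
      rw [dif_pos hi, if_neg]
      intro h
      exact hj ⟨⟨i, hi⟩, h⟩

theorem fits_pair {J : Finset (Fin n)} {m : ℕ} {x y : Fin n} (hx : x ∈ J) (hy : y ∈ J)
    (hxy : x ≠ y) (hle : a x + a y ≤ 1) (h : Fits a ((J.erase x).erase y) m) :
    Fits a J (m + 1) := by
  classical
  obtain ⟨f, hf⟩ := h
  have hy' : y ∈ J.erase x := Finset.mem_erase.2 ⟨hxy.symm, hy⟩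
  refine ⟨fun i => if i = x ∨ i = y then Fin.last m else (f i).castSucc, fun j => ?_⟩
  beta_reduce
  rw [← Finset.add_sum_erase _ _ hx, ← Finset.add_sum_erase _ _ hy']
  have hrest : ∀ i ∈ (J.erase x).erase y, ¬(i = x ∨ i = y) := by
    intro i hi h
    rw [Finset.mem_erase, Finset.mem_erase] at hi
    rcases h with h | h
    · exact hi.2.1 h
    · exact hi.1 h
  rw [Finset.sum_congr rfl (g := fun i => if (f i).castSucc = j then a i else 0)
    fun i hi => by rw [if_neg (hrest i hi)]]
  simp only [true_or, or_true, if_true]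
  induction j using Fin.lastCases with
  | last =>
    rw [if_pos rfl, if_pos rfl, Finset.sum_eq_zero]
    · linarith
    · intro i _
      rw [if_neg]
      exact (Fin.castSucc_lt_last _).ne
  | cast j =>
    rw [if_neg (Fin.castSucc_lt_last j).ne', if_neg (Fin.castSucc_lt_last j).ne', zero_add,
      zero_add]
    refine le_trans (le_of_eq ?_) (hf j)
    refine Finset.sum_congr rfl fun i _ => ?_
    simp only [Fin.castSucc_inj]

/-- a family that does not fit into `k + 1` bins although its total size is at most `k` contains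
one with all sizes above `1 / k` -/
theorem reduce (h0 : ∀ i, 0 < a i) {k : ℕ} (htot : ∑ i, a i ≤ k) (hnot : ¬ Fits a univ (k + 1)) :
    ∃ J : Finset (Fin n), ¬ Fits a J (k + 1) ∧ ∀ i ∈ J, 1 < k * a i := by
  classical
  obtain ⟨J, hJ, hmin⟩ := Finset.exists_min_image
    ((univ : Finset (Fin n)).powerset.filter fun J => ¬ Fits a J (k + 1)) Finset.card
    ⟨univ, by simpa using hnot⟩
  rw [Finset.mem_filter] at hJ
  have hJne : J.Nonempty := by
    by_contra hcon
    rw [Finset.not_nonempty_iff_eq_empty] at hcon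
    apply hJ.2
    rw [hcon]
    exact ⟨fun _ => 0, fun j => by simp⟩
  obtain ⟨x, hx, hxmin⟩ := Finset.exists_min_image J a hJne
  have hfit : Fits a (J.erase x) (k + 1) := by
    by_contra hcon
    have h1 := hmin (J.erase x) (by simpa using hcon)
    have h2 := Finset.card_erase_lt_of_mem hx
    omega
  obtain ⟨f, hf⟩ := hfit
  have hbin : ∀ j, 1 < a x + ∑ i ∈ J.erase x, (if f i = j then a i else 0) := by
    intro j
    by_contra hcon
    rw [not_lt] at hcon
    apply hJ.2
    refine ⟨Function.update f x j, fun j' => ?_⟩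
    rw [← Finset.add_sum_erase _ _ hx, Function.update_self]
    rw [Finset.sum_congr rfl (g := fun i => if f i = j' then a i else 0)
      fun i hi => by rw [Function.update_of_ne (Finset.ne_of_mem_erase hi)]]
    by_cases hjj : j = j'
    · rw [if_pos hjj, ← hjj]
      exact hcon
    · rw [if_neg hjj, zero_add]
      exact hf j'
  have hsum : ∑ j : Fin (k + 1), ∑ i ∈ J.erase x, (if f i = j then a i else 0)
      = ∑ i ∈ J.erase x, a i := by
    rw [Finset.sum_comm]
    refine Finset.sum_congr rfl fun i _ => ?_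
    rw [Finset.sum_ite_eq]
    simp
  have hlt : ((k : ℚ) + 1) * (1 - a x) < ∑ i ∈ J.erase x, a i := by
    rw [← hsum]
    calc ((k : ℚ) + 1) * (1 - a x) = ∑ j : Fin (k + 1), (1 - a x) := by
          rw [Finset.sum_const, Finset.card_univ, Fintype.card_fin, nsmul_eq_mul]
          push_cast
          ring
      _ < _ := by
          refine Finset.sum_lt_sum_of_nonempty ⟨0, Finset.mem_univ _⟩ fun j _ => ?_
          have := hbin j
          linarith
  have htot2 : a x + ∑ i ∈ J.erase x, a i ≤ k := by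
    rw [Finset.add_sum_erase _ _ hx]
    exact (Finset.sum_le_sum_of_subset_of_nonneg (Finset.subset_univ J)
      fun i _ _ => (h0 i).le).trans htot
  refine ⟨J, hJ.2, fun i hi => ?_⟩
  have h3 : a x ≤ a i := hxmin i hi
  have h4 : 1 < (k : ℚ) * a x := by nlinarith
  exact lt_of_lt_of_le h4 (mul_le_mul_of_nonneg_left h3 (Nat.cast_nonneg k))

theorem total_le (h0 : ∀ i, 0 < a i) (h1 : ∀ i, a i ≤ 1) : ((∑ i, a i : ℚ) : ℝ) ≤ LP a := by
  have h2 := dual h1 (fun σ => ((max σ 0 : ℚ) : ℝ)) (fun σ => by exact_mod_cast le_max_right _ _)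
    (fun c hc => by
      have h3 : c.sum (fun σ k => (k : ℝ) * ((max σ 0 : ℚ) : ℝ))
          = ((c.sum (fun σ k => (k : ℚ) * σ) : ℚ) : ℝ) := by
        rw [Finsupp.sum, Finsupp.sum]
        push_cast
        refine Finset.sum_congr rfl fun σ hσ => ?_
        obtain ⟨i, _, hi⟩ := Finset.mem_image.1 (hc.1 hσ)
        have h4 : 0 ≤ σ := by rw [← hi]; exact (h0 i).le
        have h5 : (0 : ℝ) ≤ (σ : ℝ) := by exact_mod_cast h4
        rw [max_eq_left h5]
      rw [h3]
      exact_mod_cast hc.2)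
  refine le_trans (le_of_eq ?_) h2
  push_cast
  refine Finset.sum_congr rfl fun i _ => ?_
  have h5 : (0 : ℝ) ≤ (a i : ℝ) := by exact_mod_cast (h0 i).le
  rw [max_eq_left h5]

/-- there are at most `t * LP` items of size above `1 / (t + 1)` -/
theorem count_le (h0 : ∀ i, 0 < a i) (h1 : ∀ i, a i ≤ 1) {t : ℕ} (ht : 0 < t)
    {J : Finset (Fin n)} (hJ : ∀ i ∈ J, 1 < ((t : ℚ) + 1) * a i) :
    (J.card : ℝ) ≤ t * LP a := by
  classical
  have htr : (0 : ℝ) < t := by exact_mod_cast ht
  have h2 := dual h1 (fun σ => if 1 < ((t : ℚ) + 1) * σ then 1 / (t : ℝ) else 0)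
    (fun σ => by
      split_ifs
      · positivity
      · exact le_rfl)
    (fun c hc => by
      have h3 : c.sum (fun σ k => (k : ℝ) * (if 1 < ((t : ℚ) + 1) * σ then 1 / (t : ℝ) else 0))
          = ((∑ σ ∈ c.support.filter (fun σ => 1 < ((t : ℚ) + 1) * σ), c σ : ℕ) : ℝ) / t := by
        rw [Finsupp.sum, Finset.sum_filter]
        push_cast
        rw [Finset.sum_div]
        refine Finset.sum_congr rfl fun σ _ => ?_
        split_ifs
        · ring
        · simp
      have h4 : ∑ σ ∈ c.support.filter (fun σ => 1 < ((t : ℚ) + 1) * σ), c σ ≤ t := by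
        by_contra hcon
        rw [not_le] at hcon
        have h5 : ((∑ σ ∈ c.support.filter (fun σ => 1 < ((t : ℚ) + 1) * σ), c σ : ℕ) : ℚ)
            < ((t : ℚ) + 1) * c.sum (fun σ k => (k : ℚ) * σ) := by
          rw [Finsupp.sum, Finset.mul_sum]
          push_cast
          have hne : (c.support.filter (fun σ => 1 < ((t : ℚ) + 1) * σ)).Nonempty := by
            by_contra hemp
            rw [Finset.not_nonempty_iff_eq_empty] at hemp
            rw [hemp] at hcon
            simp at hcon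
          calc ∑ σ ∈ c.support.filter (fun σ => 1 < ((t : ℚ) + 1) * σ), (c σ : ℚ)
              < ∑ σ ∈ c.support.filter (fun σ => 1 < ((t : ℚ) + 1) * σ),
                ((t : ℚ) + 1) * ((c σ : ℚ) * σ) := by
                refine Finset.sum_lt_sum_of_nonempty hne fun σ hσ => ?_
                rw [Finset.mem_filter] at hσ
                have h6 : (0 : ℚ) < c σ := by
                  exact_mod_cast Nat.pos_of_ne_zero (Finsupp.mem_support_iff.1 hσ.1)
                nlinarith [hσ.2]
            _ ≤ ∑ σ ∈ c.support, ((t : ℚ) + 1) * ((c σ : ℚ) * σ) := by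
                refine Finset.sum_le_sum_of_subset_of_nonneg (Finset.filter_subset _ _)
                  fun σ hσ _ => ?_
                obtain ⟨i, _, hi⟩ := Finset.mem_image.1 (hc.1 hσ)
                have h7 : 0 < σ := by rw [← hi]; exact h0 i
                positivity
        have h8 : ((t : ℚ) + 1) * c.sum (fun σ k => (k : ℚ) * σ) ≤ (t : ℚ) + 1 := by
          have := hc.2
          have h9 : (0 : ℚ) < (t : ℚ) + 1 := by positivity
          nlinarith
        have h10 : ((∑ σ ∈ c.support.filter (fun σ => 1 < ((t : ℚ) + 1) * σ), c σ : ℕ) : ℚ)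
            < ((t + 1 : ℕ) : ℚ) := by
          push_cast
          push_cast at h5
          linarith
        have h11 := Nat.cast_lt.1 h10
        omega
      rw [h3, div_le_one htr]
      exact_mod_cast h4)
  have h12 : (J.card : ℝ) / t ≤ ∑ i, (if 1 < ((t : ℚ) + 1) * a i then 1 / (t : ℝ) else 0) := by
    calc (J.card : ℝ) / t = ∑ i ∈ J, (if 1 < ((t : ℚ) + 1) * a i then 1 / (t : ℝ) else 0) := by
          rw [Finset.sum_congr rfl (g := fun _ => 1 / (t : ℝ)) fun i hi => by rw [if_pos (hJ i hi)],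
            Finset.sum_const, nsmul_eq_mul]
          ring
      _ ≤ _ := Finset.sum_le_sum_of_subset_of_nonneg (Finset.subset_univ J) fun i _ _ => by
          split_ifs
          · positivity
          · exact le_rfl
  have h13 := h12.trans h2
  rw [div_le_iff₀ htr] at h13
  linarith

theorem lp_nonneg (h0 : ∀ i, 0 < a i) (h1 : ∀ i, a i ≤ 1) : 0 ≤ LP a := by
  refine le_trans ?_ (total_le h0 h1)
  exact_mod_cast Finset.sum_nonneg fun i _ => (h0 i).le

theorem total_le_ceil (h0 : ∀ i, 0 < a i) (h1 : ∀ i, a i ≤ 1) : ∑ i, a i ≤ (⌈LP a⌉₊ : ℚ) := by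
  have h2 : ((∑ i, a i : ℚ) : ℝ) ≤ ((⌈LP a⌉₊ : ℚ) : ℝ) := by
    refine (total_le h0 h1).trans ?_
    have := Nat.le_ceil (LP a)
    exact_mod_cast this
  exact_mod_cast h2

/-- every counterexample contains a small family of large items which is already one -/
theorem reduction (h0 : ∀ i, 0 < a i) (h1 : ∀ i, a i ≤ 1) (hlt : ⌈LP a⌉₊ + 1 < OPT a) :
    ∃ J : Finset (Fin n), ¬ Fits a J (⌈LP a⌉₊ + 1) ∧ (∀ i ∈ J, 1 < (⌈LP a⌉₊ : ℚ) * a i) ∧
      J.card ≤ ⌈LP a⌉₊ * (⌈LP a⌉₊ - 1) := by
  have hnot : ¬ Fits a univ (⌈LP a⌉₊ + 1) := fun h => absurd (opt_le h) (not_le.2 hlt)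
  obtain ⟨J, hJ1, hJ2⟩ := reduce h0 (total_le_ceil h0 h1) hnot
  refine ⟨J, hJ1, hJ2, ?_⟩
  have hJne : J.Nonempty := by
    by_contra hcon
    rw [Finset.not_nonempty_iff_eq_empty] at hcon
    apply hJ1
    rw [hcon]
    exact ⟨fun _ => 0, fun j => by simp⟩
  obtain ⟨x, hx⟩ := hJne
  have h2 : (2 : ℕ) ≤ ⌈LP a⌉₊ := by
    by_contra hcon
    have h3 : ⌈LP a⌉₊ ≤ 1 := by omega
    have h4 : (⌈LP a⌉₊ : ℚ) ≤ 1 := by exact_mod_cast h3
    have h5 := hJ2 x hx
    have h6 := h1 x
    have h7 := h0 x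
    nlinarith
  obtain ⟨t, ht⟩ : ∃ t, ⌈LP a⌉₊ = t + 1 := ⟨⌈LP a⌉₊ - 1, by omega⟩
  have ht0 : 0 < t := by omega
  have h8 := count_le h0 h1 ht0 (J := J) (fun i hi => by
    have := hJ2 i hi
    rw [ht] at this
    push_cast at this
    exact this)
  have h9 : LP a ≤ ((t + 1 : ℕ) : ℝ) := by
    rw [← ht]
    exact Nat.le_ceil _
  have h10 : (J.card : ℝ) ≤ (((t + 1) * t : ℕ) : ℝ) := by
    refine h8.trans ?_
    push_cast at h9 ⊢
    have : (0 : ℝ) ≤ t := Nat.cast_nonneg t
    nlinarith
  rw [ht, Nat.add_sub_cancel]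
  exact_mod_cast h10

theorem mirup_small (h0 : ∀ i, 0 < a i) (h1 : ∀ i, a i ≤ 1) (h3 : LP a ≤ 3) :
    OPT a ≤ ⌈LP a⌉₊ + 1 := by
  classical
  by_contra hcon
  rw [not_le] at hcon
  obtain ⟨J, hJ1, hJ2, -⟩ := reduction h0 h1 hcon
  have hk : ⌈LP a⌉₊ ≤ 3 := by
    rw [Nat.ceil_le]
    exact_mod_cast h3
  have htotJ : ∑ i ∈ J, a i ≤ (⌈LP a⌉₊ : ℚ) :=
    (Finset.sum_le_sum_of_subset_of_nonneg (Finset.subset_univ J)
      fun i _ _ => (h0 i).le).trans (total_le_ceil h0 h1)
  set k := ⌈LP a⌉₊ with hkdef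
  have hcard : k + 1 < J.card := by
    by_contra hc
    exact hJ1 (fits_card h1 (Nat.succ_pos k) (not_lt.1 hc))
  have hJne : J.Nonempty := Finset.card_pos.1 (by omega)
  -- the total size exceeds card / k
  have hsz : (J.card : ℚ) < k * ∑ i ∈ J, a i := by
    rw [Finset.mul_sum]
    calc (J.card : ℚ) = ∑ i ∈ J, (1 : ℚ) := by simp
      _ < _ := Finset.sum_lt_sum_of_nonempty hJne hJ2
  have hkk : (J.card : ℚ) < (k : ℚ) * k :=
    lt_of_lt_of_le hsz (mul_le_mul_of_nonneg_left htotJ (Nat.cast_nonneg k))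
  have hkk' : J.card < k * k := by exact_mod_cast hkk
  have hk3 : k = 3 := by
    rcases Nat.lt_or_ge k 3 with h | h
    · interval_cases k <;> omega
    · omega
  rw [hk3] at hJ1 hJ2 hcard htotJ
  have hc6 : J.card ≤ 6 := by
    have h4 := count_le h0 h1 (t := 2) (by norm_num) (J := J) (fun i hi => by
      have := hJ2 i hi
      push_cast at this ⊢
      linarith)
    have h5 : (J.card : ℝ) ≤ 6 := by
      push_cast at h4
      linarith
    exact_mod_cast h5
  -- big and medium items
  set B := J.filter fun i => 1 < 2 * a i with hB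
  set M := J.filter fun i => ¬ 1 < 2 * a i with hM
  have hBM : B.card + M.card = J.card := Finset.card_filter_add_card_filter_not _
  have hB3 : B.card ≤ 3 := by
    have h4 := count_le h0 h1 (t := 1) (by norm_num) (J := B) (fun i hi => by
      have := (Finset.mem_filter.1 hi).2
      push_cast
      linarith)
    have h5 : (B.card : ℝ) ≤ 3 := by
      push_cast at h4
      linarith
    exact_mod_cast h5
  have hmed : ∀ x ∈ M, ∀ y ∈ M, a x + a y ≤ 1 := by
    intro x hx y hy
    have h4 := (Finset.mem_filter.1 hx).2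
    have h5 := (Finset.mem_filter.1 hy).2
    linarith
  have hMJ : ∀ x ∈ M, x ∈ J := fun x hx => (Finset.mem_filter.1 hx).1
  have hBJ : ∀ x ∈ B, x ∈ J := fun x hx => (Finset.mem_filter.1 hx).1
  have hdisj : ∀ x ∈ B, ∀ y ∈ M, x ≠ y := by
    intro x hx y hy h
    rw [h] at hx
    exact (Finset.mem_filter.1 hy).2 (Finset.mem_filter.1 hx).2
  -- two disjoint fitting pairs and at most six items
  have two : ∀ x y u v : Fin n, x ∈ J → y ∈ J → u ∈ J → v ∈ J → x ≠ y → u ≠ v → u ≠ x → u ≠ y →
      v ≠ x → v ≠ y → a x + a y ≤ 1 → a u + a v ≤ 1 → False := by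
    intro x y u v hx hy hu hv hxy huv hux huy hvx hvy h4 h5
    apply hJ1
    refine fits_pair hx hy hxy h4 ?_
    have hu' : u ∈ (J.erase x).erase y :=
      Finset.mem_erase.2 ⟨huy, Finset.mem_erase.2 ⟨hux, hu⟩⟩
    have hv' : v ∈ (J.erase x).erase y :=
      Finset.mem_erase.2 ⟨hvy, Finset.mem_erase.2 ⟨hvx, hv⟩⟩
    refine fits_pair hu' hv' huv h5 ?_
    apply fits_card h1 (by norm_num)
    have e1 := Finset.card_erase_of_mem hx
    have hy' : y ∈ J.erase x := Finset.mem_erase.2 ⟨hxy.symm, hy⟩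
    have e2 := Finset.card_erase_of_mem hy'
    have e3 := Finset.card_erase_of_mem hu'
    have hv'' : v ∈ ((J.erase x).erase y).erase u := Finset.mem_erase.2 ⟨huv.symm, hv'⟩
    have e4 := Finset.card_erase_of_mem hv''
    omega
  rcases Nat.lt_or_ge M.card 4 with hM4 | hM4
  · rcases Nat.lt_or_ge J.card 6 with h6 | h6
    · -- five items, one medium pair
      have hM2 : 1 < M.card := by omega
      obtain ⟨x, hx, y, hy, hxy⟩ := Finset.one_lt_card.1 hM2
      apply hJ1
      refine fits_pair (hMJ x hx) (hMJ y hy) hxy (hmed x hx y hy) ?_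
      apply fits_card h1 (by norm_num)
      have e1 := Finset.card_erase_of_mem (hMJ x hx)
      have hy' : y ∈ J.erase x := Finset.mem_erase.2 ⟨hxy.symm, hMJ y hy⟩
      have e2 := Finset.card_erase_of_mem hy'
      omega
    · -- three big and three medium items
      have hM3 : M.card = 3 := by omega
      have hB3' : B.card = 3 := by omega
      obtain ⟨x, y, z, hxy, hxz, hyz, hMe⟩ := Finset.card_eq_three.1 hM3
      obtain ⟨u, v, w, huv, huw, hvw, hBe⟩ := Finset.card_eq_three.1 hB3'
      have mx : x ∈ M := by rw [hMe]; simp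
      have my : y ∈ M := by rw [hMe]; simp
      have mz : z ∈ M := by rw [hMe]; simp
      have bu : u ∈ B := by rw [hBe]; simp
      have bv : v ∈ B := by rw [hBe]; simp
      have bw : w ∈ B := by rw [hBe]; simp
      have f1 : 1 < a u + a x := by
        by_contra hc
        exact two u x y z (hBJ u bu) (hMJ x mx) (hMJ y my) (hMJ z mz) (hdisj u bu x mx) hyz
          (hdisj u bu y my).symm hxy.symm (hdisj u bu z mz).symm hxz.symm (not_lt.1 hc)
          (hmed y my z mz)
      have f2 : 1 < a v + a y := by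
        by_contra hc
        exact two v y x z (hBJ v bv) (hMJ y my) (hMJ x mx) (hMJ z mz) (hdisj v bv y my) hxz
          (hdisj v bv x mx).symm hxy (hdisj v bv z mz).symm hyz.symm (not_lt.1 hc)
          (hmed x mx z mz)
      have f3 : 1 < a w + a z := by
        by_contra hc
        exact two w z x y (hBJ w bw) (hMJ z mz) (hMJ x mx) (hMJ y my) (hdisj w bw z mz) hxy
          (hdisj w bw x mx).symm hxz (hdisj w bw y my).symm hyz (not_lt.1 hc)
          (hmed x mx y my)
      have hs : ∑ i ∈ B, a i + ∑ i ∈ M, a i = ∑ i ∈ J, a i :=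
        Finset.sum_filter_add_sum_filter_not _ _ _
      rw [hBe, hMe, Finset.sum_insert (by simp [huv, huw]), Finset.sum_insert (by simp [hvw]),
        Finset.sum_singleton, Finset.sum_insert (by simp [hxy, hxz]),
        Finset.sum_insert (by simp [hyz]), Finset.sum_singleton] at hs
      push_cast at htotJ
      linarith
  · -- four medium items
    obtain ⟨x, hx, y, hy, hxy⟩ := Finset.one_lt_card.1 (show 1 < M.card by omega)
    have hy' : y ∈ M.erase x := Finset.mem_erase.2 ⟨hxy.symm, hy⟩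
    have e1 := Finset.card_erase_of_mem hx
    have e2 := Finset.card_erase_of_mem hy'
    obtain ⟨u, hu, v, hv, huv⟩ := Finset.one_lt_card.1
      (show 1 < ((M.erase x).erase y).card by omega)
    rw [Finset.mem_erase, Finset.mem_erase] at hu hv
    exact two x y u v (hMJ x hx) (hMJ y hy) (hMJ u hu.2.2) (hMJ v hv.2.2) hxy huv hu.2.1 hu.1
      hv.2.1 hv.1 (hmed x hx y hy) (hmed u hu.2.2 v hv.2.2)

end

end Vale.Agent.P302

/-- (1) Every bin packing instance with configuration LP value at most three satisfies the modified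
integer round-up property.  (2) With `k = ⌈LP⌉`, every instance violating the property contains at
most `k (k - 1)` items, all of size above `1 / k`, which already do not fit into `k + 1` bins. -/
theorem Vale.Agent.Results.P302.SmallValues.result :
    (∀ (n : ℕ) (a : Fin n → ℚ), (∀ i, 0 < a i) → (∀ i, a i ≤ 1) → Vale.Agent.P302.LP a ≤ 3 →
      Vale.Agent.P302.OPT a ≤ ⌈Vale.Agent.P302.LP a⌉₊ + 1) ∧
    (∀ (n : ℕ) (a : Fin n → ℚ), (∀ i, 0 < a i) → (∀ i, a i ≤ 1) →
      ⌈Vale.Agent.P302.LP a⌉₊ + 1 < Vale.Agent.P302.OPT a →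
      ∃ J : Finset (Fin n), ¬ Vale.Agent.P302.Fits a J (⌈Vale.Agent.P302.LP a⌉₊ + 1) ∧
        (∀ i ∈ J, 1 < (⌈Vale.Agent.P302.LP a⌉₊ : ℚ) * a i) ∧
        J.card ≤ ⌈Vale.Agent.P302.LP a⌉₊ * (⌈Vale.Agent.P302.LP a⌉₊ - 1)) :=
  ⟨fun _ _ h0 h1 h3 => Vale.Agent.P302.mirup_small h0 h1 h3,
    fun _ _ h0 h1 h => Vale.Agent.P302.reduction h0 h1 h⟩
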