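import Vale.Agent.Lib.P302L.Eq

/-!
# P302: the integer round-up property for items larger than `1/3`, the modified round-up property for instances
whose items are larger than `1/3` or at most `1/LP`, in particular for all instances with `LP ≤ 3`
-/

namespace Vale.Agent.Results.P302.ThirdOrSmall

open Vale.Agent.P302L

theorem result :
    (∀ (ι : Type) [Fintype ι] (a : ι → ℚ), Instance a → (∀ i, 1 / 3 < a i) → OPT a = ⌈LP a⌉₊) ∧
    (∀ c : ℕ, 1 ≤ c → ∀ (ι : Type) [Fintype ι] (a : ι → ℚ), Instance a →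
      (∀ i, 1 / 3 < a i ∨ (a i : ℝ) * (LP a + c - 1) ≤ c) → OPT a ≤ ⌈LP a⌉₊ + c) ∧
    (∀ c : ℕ, 1 ≤ c → ∀ (ι : Type) [Fintype ι] (a : ι → ℚ), Instance a →
      LP a ≤ 2 * c + 1 → OPT a ≤ ⌈LP a⌉₊ + c) :=
  ⟨fun _ _ a ha h => third_eq a ha h, fun c hc ι _ a ha h => mixed_ind c hc _ ι a ha rfl h,
    fun c hc _ _ a ha h => small_LP c hc a ha h⟩

end Vale.Agent.Results.P302.ThirdOrSmall
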